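import Crest.Agent.T318.Defs_25
import Crest.Agent.Lib.PT.Alphabet
import Crest.Agent.T318.PackDefsPT_21

-- ▼ part T318/NoA_25
section

/-!
# Row 318, NO side, part A: counting, the crossing bound and the group lemma
-/

set_option autoImplicit false

namespace Crest.Agent.T318.C25

/-! ### counting in multisets -/

open Classical in
/-- number of elements of `s` with `p` -/
noncomputable def cnt {α : Type} (p : α → Prop) (s : Multiset α) : ℕ := Multiset.countP p s

section cnt

variable {α β : Type}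

theorem cnt_zero (p : α → Prop) : cnt p (0 : Multiset α) = 0 := by
  classical
  simp [cnt]

theorem cnt_add (p : α → Prop) (s t : Multiset α) : cnt p (s + t) = cnt p s + cnt p t := by
  classical
  simp [cnt]

theorem cnt_cons_pos {p : α → Prop} {a : α} (h : p a) (s : Multiset α) :
    cnt p (a ::ₘ s) = cnt p s + 1 := by
  classical
  unfold cnt
  exact Multiset.countP_cons_of_pos s h

theorem cnt_cons_neg {p : α → Prop} {a : α} (h : ¬ p a) (s : Multiset α) :
    cnt p (a ::ₘ s) = cnt p s := by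
  classical
  unfold cnt
  exact Multiset.countP_cons_of_neg s h

theorem cnt_le_card (p : α → Prop) (s : Multiset α) : cnt p s ≤ Multiset.card s := by
  classical
  unfold cnt
  exact Multiset.countP_le_card _ _

theorem cnt_mono (p : α → Prop) {s t : Multiset α} (h : s ≤ t) : cnt p s ≤ cnt p t := by
  obtain ⟨u, rfl⟩ := Multiset.le_iff_exists_add.1 h
  rw [cnt_add]; omega

theorem cnt_le_of_le (p : α → Prop) {s t : Multiset α} (h : s ≤ t) {D : ℕ}
    (hD : Multiset.card t ≤ Multiset.card s + D) : cnt p t ≤ cnt p s + D := by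
  obtain ⟨u, rfl⟩ := Multiset.le_iff_exists_add.1 h
  rw [cnt_add]
  have := cnt_le_card p u
  rw [Multiset.card_add] at hD
  omega

theorem cnt_map (p : β → Prop) (f : α → β) (s : Multiset α) :
    cnt p (s.map f) = cnt (fun a => p (f a)) s := by
  induction s using Multiset.induction_on with
  | empty => simp [cnt_zero]
  | cons a s ih =>
    rw [Multiset.map_cons]
    by_cases h : p (f a)
    · rw [cnt_cons_pos h, cnt_cons_pos (p := fun a => p (f a)) h, ih]
    · rw [cnt_cons_neg h, cnt_cons_neg (p := fun a => p (f a)) h, ih]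

theorem cnt_or {p p1 p2 : α → Prop} {s : Multiset α} (h : ∀ a ∈ s, p a → p1 a ∨ p2 a) :
    cnt p s ≤ cnt p1 s + cnt p2 s := by
  induction s using Multiset.induction_on with
  | empty => simp [cnt_zero]
  | cons a s ih =>
    have ih' := ih fun b hb => h b (Multiset.mem_cons_of_mem hb)
    have ha := h a (Multiset.mem_cons_self a s)
    by_cases h0 : p a <;> by_cases h1 : p1 a <;> by_cases h2 : p2 a <;>
      simp only [cnt_cons_pos, cnt_cons_neg, h0, h1, h2, not_false_eq_true] <;>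
      first | omega | (exfalso; tauto)

theorem cnt_disj {p p1 p2 : α → Prop} {s : Multiset α} (h1 : ∀ a ∈ s, p1 a → p a)
    (h2 : ∀ a ∈ s, p2 a → p a) (h3 : ∀ a ∈ s, p1 a → p2 a → False) :
    cnt p1 s + cnt p2 s ≤ cnt p s := by
  induction s using Multiset.induction_on with
  | empty => simp [cnt_zero]
  | cons a s ih =>
    have ih' := ih (fun b hb => h1 b (Multiset.mem_cons_of_mem hb))
      (fun b hb => h2 b (Multiset.mem_cons_of_mem hb))
      (fun b hb => h3 b (Multiset.mem_cons_of_mem hb))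
    have ha1 := h1 a (Multiset.mem_cons_self a s)
    have ha2 := h2 a (Multiset.mem_cons_self a s)
    have ha3 := h3 a (Multiset.mem_cons_self a s)
    by_cases h0 : p a <;> by_cases h1 : p1 a <;> by_cases h2 : p2 a <;>
      simp only [cnt_cons_pos, cnt_cons_neg, h0, h1, h2, not_false_eq_true] <;>
      first | omega | (exfalso; tauto)

theorem cnt_imp {p p1 : α → Prop} {s : Multiset α} (h : ∀ a ∈ s, p a → p1 a) :
    cnt p s ≤ cnt p1 s := by
  have h1 := cnt_disj (p := p1) (p1 := p) (p2 := fun _ => False) h (fun _ _ h => h.elim)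
    (fun _ _ _ h => h)
  omega

theorem cnt_eq_zero {p : α → Prop} {s : Multiset α} (h : ∀ a ∈ s, ¬ p a) : cnt p s = 0 := by
  induction s using Multiset.induction_on with
  | empty => simp [cnt_zero]
  | cons a s ih =>
    rw [cnt_cons_neg (h a (Multiset.mem_cons_self a s))]
    exact ih fun b hb => h b (Multiset.mem_cons_of_mem hb)

theorem cnt_eq_card {p : α → Prop} {s : Multiset α} (h : ∀ a ∈ s, p a) :
    cnt p s = Multiset.card s := by
  induction s using Multiset.induction_on with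
  | empty => simp [cnt_zero]
  | cons a s ih =>
    rw [cnt_cons_pos (h a (Multiset.mem_cons_self a s)), Multiset.card_cons,
      ih fun b hb => h b (Multiset.mem_cons_of_mem hb)]

theorem cnt_le_sum {ι : Type} (F : Finset ι) (f : ι → α → Prop) {p : α → Prop} {s : Multiset α}
    (h : ∀ a ∈ s, p a → ∃ i ∈ F, f i a) : cnt p s ≤ ∑ i ∈ F, cnt (f i) s := by
  classical
  induction F using Finset.induction_on generalizing p with
  | empty =>
    rw [cnt_eq_zero fun a ha hp => by simpa using h a ha hp]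
    exact Nat.zero_le _
  | insert i F hi ih =>
    rw [Finset.sum_insert hi]
    have h1 := cnt_or (p := p) (p1 := f i) (p2 := fun a => ∃ j ∈ F, f j a) (s := s)
      fun a ha hp => by simpa using h a ha hp
    have h2 := ih (p := fun a => ∃ j ∈ F, f j a) fun a _ hp => hp
    omega

theorem card_le_cnt {p : α → Prop} {s : Multiset α} (S : Finset α)
    (h : ∀ a ∈ S, a ∈ s ∧ p a) : S.card ≤ cnt p s := by
  have h1 : S.val ≤ s := (Multiset.le_iff_subset S.nodup).2 fun a ha => (h a ha).1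
  have h2 := cnt_mono p h1
  rw [cnt_eq_card fun a ha => (h a ha).2] at h2
  exact h2

end cnt

/-! ### the ambient family of triples -/

/-- `Q` is an almost perfect feasible family for the points `P`, `K` machines, final time `T` and
initial job length `J` -/
structure Amb (P : List (ℕ × ℕ)) (K D T J : ℕ) (Q : Multiset (ℕ × ℕ × ℕ)) : Prop where
  feas : ∀ q ∈ Q, q.1 + q.2.2 ≤ q.2.1
  hA : Q.map (fun q => q.1) ≤ ((List.replicate K 0 ++ P.map Prod.fst : List ℕ) : Multiset ℕ)
  hB : Q.map (fun q => q.2.1) ≤ ((List.replicate K T ++ P.map Prod.fst : List ℕ) : Multiset ℕ)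
  hZ : Q.map (fun q => q.2.2) ≤ ((List.replicate K J ++ P.map Prod.snd : List ℕ) : Multiset ℕ)
  hc : K + P.length ≤ Multiset.card Q + D

theorem cnt_rep_append (p : ℕ → Prop) (K a : ℕ) (P : List (ℕ × ℕ)) (f : ℕ × ℕ → ℕ) :
    cnt p ((List.replicate K a ++ P.map f : List ℕ) : Multiset ℕ) =
      cnt p (Multiset.replicate K a) + cnt (fun x => p (f x)) (P : Multiset (ℕ × ℕ)) := by
  rw [← Multiset.coe_add, cnt_add, ← Multiset.map_coe, cnt_map, Multiset.coe_replicate]

theorem cnt_rep_le (p : ℕ → Prop) (K a : ℕ) : cnt p (Multiset.replicate K a) ≤ K := by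
  have := cnt_le_card p (Multiset.replicate K a)
  simpa using this

theorem cnt_rep_eq {p : ℕ → Prop} (K : ℕ) {a : ℕ} (h : p a) :
    cnt p (Multiset.replicate K a) = K := by
  rw [cnt_eq_card fun b hb => by rw [Multiset.eq_of_mem_replicate hb]; exact h]
  simp

section amb

variable {P : List (ℕ × ℕ)} {K D T J : ℕ} {Q : Multiset (ℕ × ℕ × ℕ)}

theorem Amb.startLe (h : Amb P K D T J Q) (p : ℕ → Prop) :
    cnt (fun q => p q.1) Q ≤ K + cnt (fun x => p x.1) (P : Multiset (ℕ × ℕ)) := by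
  have h1 := cnt_mono p h.hA
  rw [cnt_map, cnt_rep_append] at h1
  have := cnt_rep_le p K 0
  omega

theorem Amb.endGe (h : Amb P K D T J Q) (p : ℕ → Prop) :
    cnt (fun x => p x.1) (P : Multiset (ℕ × ℕ)) ≤ cnt (fun q => p q.2.1) Q + D := by
  have h1 := cnt_le_of_le p h.hB (D := D) (by simpa using h.hc)
  rw [cnt_map, cnt_rep_append] at h1
  omega

theorem Amb.jobGe (h : Amb P K D T J Q) (p : ℕ → Prop) (hJ : p J) :
    K + cnt (fun x => p x.2) (P : Multiset (ℕ × ℕ)) ≤ cnt (fun q => p q.2.2) Q + D := by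
  have h1 := cnt_le_of_le p h.hZ (D := D) (by simpa using h.hc)
  rw [cnt_map, cnt_rep_append, cnt_rep_eq K hJ] at h1
  omega

theorem Amb.endMem (h : Amb P K D T J Q) {q : ℕ × ℕ × ℕ} (hq : q ∈ Q) :
    q.2.1 = T ∨ ∃ p ∈ P, p.1 = q.2.1 := by
  have h1 : q.2.1 ∈ Q.map (fun q => q.2.1) := Multiset.mem_map_of_mem _ hq
  have h2 := Multiset.mem_of_le h.hB h1
  simp only [Multiset.mem_coe, List.mem_append, List.mem_replicate, List.mem_map] at h2
  rcases h2 with h2 | h2
  · exact Or.inl h2.2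
  · exact Or.inr h2

/-- at most `K + D` triples cross a time -/
theorem Amb.cross (h : Amb P K D T J Q) (x : ℕ) :
    cnt (fun q => q.1 ≤ x ∧ x < q.2.1) Q ≤ K + D := by
  have h1 := h.startLe (fun a => a ≤ x)
  have h2 := h.endGe (fun a => a ≤ x)
  have h3 := cnt_disj (p := fun q : ℕ × ℕ × ℕ => q.1 ≤ x) (p1 := fun q => q.1 ≤ x ∧ x < q.2.1)
    (p2 := fun q => q.2.1 ≤ x) (s := Q) (fun _ _ h => h.1)
    (fun q hq h' => by have := h.feas q hq; omega) (fun _ _ h h' => by omega)
  omega

end amb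

/-! ### windows -/

/-- the point `p` does not use the levels in `[lo, hi)` -/
def Out (Λ lo hi : ℕ) (F : Finset ℕ) (p : ℕ × ℕ) : Prop :=
  (Λ ^ hi ≤ p.2 ∧ Λ ^ hi ∣ p.1) ∨ ∃ w ∈ F, w ≤ p.1 ∧ p.1 < w + Λ ^ lo

/-- the time `t` lies in a cluster of a window with base in `W` -/
def InW (Λ d y q : ℕ) (W : Finset ℕ) (t : ℕ) : Prop :=
  ∃ w ∈ W, ∃ κ ≤ q, ∃ ρ < (d + 1) * Λ ^ y, t = w + κ * Λ ^ (y + 1) + ρ

/-- number of triples with a special job of level `y` that span the cluster `κ + 1` of the window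
with base `w` -/
noncomputable def sk (Λ d : ℕ) (Q : Multiset (ℕ × ℕ × ℕ)) (y w κ : ℕ) : ℕ :=
  cnt (fun q => q.2.2 = sig Λ d y ∧ q.1 < w + (κ + 1) * Λ ^ (y + 1) ∧
    w + (κ + 2) * Λ ^ (y + 1) ≤ q.2.1) Q

/-- number of triples with a job of level `≥ h` that span the window `[w, w + Λ ^ h)` -/
noncomputable def span (Λ : ℕ) (Q : Multiset (ℕ × ℕ × ℕ)) (w h : ℕ) : ℕ :=
  cnt (fun q => Λ ^ h ≤ q.2.2 ∧ q.1 < w ∧ w + Λ ^ h ≤ q.2.1) Q

theorem eq_of_dvd_of_mem {Y w w' b : ℕ} (hw : Y ∣ w) (hw' : Y ∣ w') (h1 : w ≤ b) (h2 : b < w + Y)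
    (h3 : w' ≤ b) (h4 : b < w' + Y) : w = w' := by
  obtain ⟨u, rfl⟩ := hw
  obtain ⟨u', rfl⟩ := hw'
  have a1 : Y * u < Y * (u' + 1) := by rw [mul_add, mul_one]; omega
  have a2 : Y * u' < Y * (u + 1) := by rw [mul_add, mul_one]; omega
  have b1 := Nat.lt_of_mul_lt_mul_left a1
  have b2 := Nat.lt_of_mul_lt_mul_left a2
  have : u = u' := by omega
  rw [this]

theorem sig_lt {Λ d y : ℕ} (hd : 2 * d + 1 ≤ Λ) (h3 : 3 ≤ Λ) : sig Λ d y < Λ ^ (y + 2) := by
  unfold sig
  have hU : 0 < Λ ^ y := by positivity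
  have e1 : Λ ^ (y + 1) = Λ * Λ ^ y := by ring
  have e2 : Λ ^ (y + 2) = Λ * Λ ^ (y + 1) := by ring
  have hV : 0 < Λ ^ (y + 1) := by positivity
  have h1 : (d + 1) * Λ ^ y ≤ Λ ^ (y + 1) := by
    rw [e1]; exact Nat.mul_le_mul_right _ (by omega)
  have h2 : 3 * Λ ^ (y + 1) ≤ Λ ^ (y + 2) := by
    rw [e2]; exact Nat.mul_le_mul_right _ h3
  omega

theorem Out.mono {Λ lo hi lo' hi' : ℕ} {F F' : Finset ℕ} {p : ℕ × ℕ} (h : Out Λ lo hi F p)
    (hΛ : 0 < Λ) (h1 : lo ≤ lo') (h2 : hi' ≤ hi) (hF : F ⊆ F') : Out Λ lo' hi' F' p := by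
  rcases h with ⟨a, b⟩ | ⟨w, hw, a, b⟩
  · exact Or.inl ⟨(Nat.pow_le_pow_right hΛ h2).trans a, (pow_dvd_pow Λ h2).trans b⟩
  · have := Nat.pow_le_pow_right hΛ h1
    exact Or.inr ⟨w, hF hw, a, by omega⟩

section group

variable {P : List (ℕ × ℕ)} {K D T J : ℕ} {Q : Multiset (ℕ × ℕ × ℕ)}

/-- the group lemma -/
theorem Amb.group (h : Amb P K D T J Q) {Λ d lo y q : ℕ} {F W : Finset ℕ} (hlo : lo ≤ y)
    (hF : ∀ w ∈ F, Λ ^ (y + 2) ∣ w) (hW : ∀ w ∈ W, Λ ^ (y + 2) ∣ w) (hT : Λ ^ (y + 2) ∣ T)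
    (hJ : Λ ^ (y + 2) ≤ J) (hq : q + 1 ≤ Λ) (hd : 2 * d + 1 ≤ Λ) (h3 : 3 ≤ Λ)
    (hP : ∀ p ∈ P, Out Λ lo (y + 2) F p ∨ InW Λ d y q W p.1) :
    cnt (fun p => p.2 = sig Λ d y) (P : Multiset (ℕ × ℕ)) ≤
      ∑ w ∈ W, ∑ κ ∈ Finset.range q, sk Λ d Q y w κ + D + (K + D) * (F.card + W.card) := by
  have hsig := sig_lt (y := y) hd h3
  have hU : 0 < Λ ^ y := by positivity
  have e1 : Λ ^ (y + 1) = Λ * Λ ^ y := by ring
  have e2 : Λ ^ (y + 2) = Λ * Λ ^ (y + 1) := by ring
  have hV : 0 < Λ ^ (y + 1) := by positivity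
  have hdU : (d + 1) * Λ ^ y ≤ Λ ^ (y + 1) := by
    rw [e1]; exact Nat.mul_le_mul_right _ (by omega)
  have hqV : (q + 1) * Λ ^ (y + 1) ≤ Λ ^ (y + 2) := by
    rw [e2]; exact Nat.mul_le_mul_right _ hq
  have hlo' : Λ ^ lo ≤ Λ ^ y := Nat.pow_le_pow_right (by omega) hlo
  have hUV : Λ ^ y ≤ Λ ^ (y + 1) := Nat.pow_le_pow_right (by omega) (by omega)
  have hVY : Λ ^ (y + 1) ≤ Λ ^ (y + 2) := Nat.pow_le_pow_right (by omega) (by omega)
  have hsig' : sig Λ d y = Λ ^ (y + 1) + (d + 1) * Λ ^ y := rfl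
  have hFW : ∀ w ∈ F ∪ W, Λ ^ (y + 2) ∣ w := fun w hw => by
    rcases Finset.mem_union.1 hw with hw | hw
    · exact hF w hw
    · exact hW w hw
  unfold Out InW at hP
  generalize Λ ^ (y + 2) = Y at *
  -- jobs
  have a1 := h.jobGe (fun z => Y ≤ z ∨ z = sig Λ d y) (Or.inl hJ)
  have a2 := cnt_disj (p := fun x : ℕ × ℕ => Y ≤ x.2 ∨ x.2 = sig Λ d y) (p1 := fun x => Y ≤ x.2)
    (p2 := fun x => x.2 = sig Λ d y) (s := (P : Multiset (ℕ × ℕ))) (fun _ _ h => Or.inl h)
    (fun _ _ h => Or.inr h) (fun _ _ h h' => by omega)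
  -- split the hosts
  have a3 := cnt_or (p := fun q : ℕ × ℕ × ℕ => Y ≤ q.2.2 ∨ q.2.2 = sig Λ d y)
    (p1 := fun q => ¬ ∃ w ∈ F ∪ W, w ≤ q.1 ∧ q.1 < w + Y)
    (p2 := fun q => (Y ≤ q.2.2 ∨ q.2.2 = sig Λ d y) ∧ ∃ w ∈ F ∪ W, w ≤ q.1 ∧ q.1 < w + Y) (s := Q)
    fun q _ hq => by
      by_cases hh : ∃ w ∈ F ∪ W, w ≤ q.1 ∧ q.1 < w + Y
      · exact Or.inr ⟨hq, hh⟩
      · exact Or.inl hh
  have a4 := cnt_or
    (p := fun q : ℕ × ℕ × ℕ =>
      (Y ≤ q.2.2 ∨ q.2.2 = sig Λ d y) ∧ ∃ w ∈ F ∪ W, w ≤ q.1 ∧ q.1 < w + Y)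
    (p1 := fun q => ∃ w ∈ F ∪ W, q.1 ≤ w + Y - 1 ∧ w + Y - 1 < q.2.1)
    (p2 := fun q => q.2.2 = sig Λ d y ∧ ∃ w ∈ F ∪ W, w ≤ q.1 ∧ q.2.1 < w + Y) (s := Q)
    fun q hq ⟨h1, w, hw, h2, h3⟩ => by
      have := h.feas q hq
      by_cases hb : q.2.1 < w + Y
      · exact Or.inr ⟨by omega, w, hw, h2, hb⟩
      · exact Or.inl ⟨w, hw, by omega, by omega⟩
  -- starts outside all segments
  have a5 := h.startLe (fun a => ¬ ∃ w ∈ F ∪ W, w ≤ a ∧ a < w + Y)
  have a6 := cnt_imp (p := fun x : ℕ × ℕ => ¬ ∃ w ∈ F ∪ W, w ≤ x.1 ∧ x.1 < w + Y)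
    (p1 := fun x => Y ≤ x.2) (s := (P : Multiset (ℕ × ℕ))) fun p hp hn => by
      rcases hP p hp with (⟨h1, _⟩ | ⟨w, hw, h1, h2⟩) | ⟨w, hw, κ, hκ, ρ, hρ, ht⟩
      · exact h1
      · exact absurd ⟨w, Finset.mem_union_left _ hw, h1, by omega⟩ hn
      · refine absurd ⟨w, Finset.mem_union_right _ hw, by omega, ?_⟩ hn
        have : κ * Λ ^ (y + 1) ≤ q * Λ ^ (y + 1) := Nat.mul_le_mul_right _ hκ
        rw [add_mul, one_mul] at hqV
        omega
  -- crossing triples
  have a7 := cnt_le_sum (F ∪ W) (fun w (q : ℕ × ℕ × ℕ) => q.1 ≤ w + Y - 1 ∧ w + Y - 1 < q.2.1)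
    (p := fun q => ∃ w ∈ F ∪ W, q.1 ≤ w + Y - 1 ∧ w + Y - 1 < q.2.1) (s := Q) fun _ _ hq => hq
  have a8 : ∑ w ∈ F ∪ W, cnt (fun q : ℕ × ℕ × ℕ => q.1 ≤ w + Y - 1 ∧ w + Y - 1 < q.2.1) Q ≤
      (K + D) * (F.card + W.card) := by
    refine (Finset.sum_le_card_nsmul _ _ (K + D) fun w _ => h.cross _).trans ?_
    rw [smul_eq_mul, mul_comm]
    exact Nat.mul_le_mul_left _ (Finset.card_union_le _ _)
  -- inner triples
  have a9 := cnt_le_sum (W ×ˢ Finset.range q)
    (fun (i : ℕ × ℕ) (q : ℕ × ℕ × ℕ) => q.2.2 = sig Λ d y ∧ q.1 < i.1 + (i.2 + 1) * Λ ^ (y + 1) ∧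
      i.1 + (i.2 + 2) * Λ ^ (y + 1) ≤ q.2.1)
    (p := fun q => q.2.2 = sig Λ d y ∧ ∃ w ∈ F ∪ W, w ≤ q.1 ∧ q.2.1 < w + Y) (s := Q)
    fun t ht ⟨h1, w, hw, h2, h3⟩ => by
      have hf := h.feas t ht
      have hw' := hFW w hw
      have hnd : ¬ Y ∣ t.2.1 := fun hd' => by
        have := eq_of_dvd_of_mem hw' hd' (b := t.2.1) (by omega) h3 le_rfl (by omega)
        omega
      rcases h.endMem ht with hb | ⟨p, hp, hb⟩
      · exact absurd (hb ▸ hT) hnd
      · rcases hP p hp with (⟨_, h4⟩ | ⟨w', hw2, h4, h5⟩) | ⟨w', hw2, κ, hκ, ρ, hρ, htt⟩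
        · exact absurd (hb ▸ h4) hnd
        · have := eq_of_dvd_of_mem hw' (hF w' hw2) (b := t.2.1) (by omega) h3 (by omega) (by omega)
          omega
        · have hκ' : κ * Λ ^ (y + 1) ≤ q * Λ ^ (y + 1) := Nat.mul_le_mul_right _ hκ
          rw [add_mul, one_mul] at hqV
          have := eq_of_dvd_of_mem hw' (hW w' hw2) (b := t.2.1) (by omega) h3 (by omega) (by omega)
          subst this
          have hκ2 : 2 ≤ κ := by
            by_contra hc
            have : κ * Λ ^ (y + 1) ≤ 1 * Λ ^ (y + 1) := Nat.mul_le_mul_right _ (by omega)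
            omega
          obtain ⟨κ', rfl⟩ : ∃ κ', κ = κ' + 2 := ⟨κ - 2, by omega⟩
          refine ⟨(w, κ'), Finset.mem_product.2 ⟨hw2, Finset.mem_range.2 (by omega)⟩, h1, ?_, ?_⟩
          · have : (κ' + 2) * Λ ^ (y + 1) = (κ' + 1) * Λ ^ (y + 1) + Λ ^ (y + 1) := by ring
            simp only
            omega
          · simp only
            omega
  rw [Finset.sum_product] at a9
  dsimp only at a9
  unfold sk
  omega

theorem Amb.span_le (h : Amb P K D T J Q) {Λ : ℕ} (hΛ : 0 < Λ) (w hi : ℕ) :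
    span Λ Q w hi ≤ K + D := by
  refine le_trans (cnt_imp fun q _ hq => ?_) (h.cross w)
  have : 0 < Λ ^ hi := by positivity
  omega

end group

theorem span_step {Λ d y w κ w' h' : ℕ} (Q : Multiset (ℕ × ℕ × ℕ)) (hd : 2 * d + 1 ≤ Λ)
    (h3 : 3 ≤ Λ) (hh : h' ≤ y) (hκ : κ + 2 ≤ Λ) (h1 : w + (κ + 1) * Λ ^ (y + 1) ≤ w')
    (h2 : w' + Λ ^ h' ≤ w + (κ + 2) * Λ ^ (y + 1)) :
    span Λ Q w (y + 2) + sk Λ d Q y w κ ≤ span Λ Q w' h' := by
  have hsig := sig_lt (y := y) hd h3
  have hsig' : sig Λ d y = Λ ^ (y + 1) + (d + 1) * Λ ^ y := rfl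
  have e2 : Λ ^ (y + 2) = Λ * Λ ^ (y + 1) := by ring
  have hqV : (κ + 2) * Λ ^ (y + 1) ≤ Λ ^ (y + 2) := by
    rw [e2]; exact Nat.mul_le_mul_right _ hκ
  have hh1 : Λ ^ h' ≤ Λ ^ (y + 1) := Nat.pow_le_pow_right (by omega) (by omega)
  have hh2 : Λ ^ h' ≤ Λ ^ (y + 2) := Nat.pow_le_pow_right (by omega) (by omega)
  unfold span sk
  refine cnt_disj (fun q _ hq => ?_) (fun q _ hq => ?_) (fun q _ hq hq' => ?_)
  · exact ⟨by omega, by omega, by omega⟩
  · exact ⟨by omega, by omega, by omega⟩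
  · omega

end Crest.Agent.T318.C25
end

-- ▼ part T318/NoB_25
section

/-!
# Row 318, NO side, part B: structure of the blocks
-/

set_option autoImplicit false

namespace Crest.Agent.T318.C25

/-- the block `sub lo b` uses levels `≥ lo` and lies in the window `[b, b + Λ ^ (lo + S))` -/
def SubOK (Λ S : ℕ) (sub : ℕ → ℕ → List (ℕ × ℕ)) : Prop :=
  ∀ lo b, Λ ^ (lo + S) ∣ b → ∀ p ∈ sub lo b,
    Λ ^ lo ≤ p.2 ∧ Λ ^ lo ∣ p.1 ∧ b ≤ p.1 ∧ p.1 < b + Λ ^ (lo + S)

theorem le_sig {Λ : ℕ} (d y : ℕ) : Λ ^ y ≤ sig Λ d y := by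
  unfold sig
  rw [add_mul, one_mul]
  omega

theorem anc_cases {Λ d y w q : ℕ} {sp : ℕ → Bool} {p : ℕ × ℕ} (hp : p ∈ anc Λ d y w q sp) :
    ∃ κ ≤ q, p.1 = w + κ * Λ ^ (y + 1) + d * Λ ^ y ∧ Λ ^ y ≤ p.2 := by
  unfold anc at hp
  obtain ⟨κ, hκ, rfl⟩ := List.mem_map.1 hp
  refine ⟨κ, by simpa [Nat.lt_succ_iff] using hκ, rfl, ?_⟩
  dsimp only
  split_ifs
  · exact le_sig d y
  · exact le_rfl

theorem mem_anc {Λ d y w q κ : ℕ} {sp : ℕ → Bool} (hκ : κ ≤ q) (hs : sp κ = true) :
    (w + κ * Λ ^ (y + 1) + d * Λ ^ y, sig Λ d y) ∈ anc Λ d y w q sp := by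
  unfold anc
  exact List.mem_map.2 ⟨κ, List.mem_range.2 (by omega), by simp [hs]⟩

theorem clu_lt {Λ d y q κ ρ : ℕ} (hκ : κ ≤ q) (hq : q + 1 ≤ Λ) (hρ : ρ < (d + 1) * Λ ^ y)
    (hd : d + 1 ≤ Λ) : κ * Λ ^ (y + 1) + ρ < Λ ^ (y + 2) := by
  have e1 : Λ ^ (y + 1) = Λ * Λ ^ y := by ring
  have e2 : Λ ^ (y + 2) = Λ * Λ ^ (y + 1) := by ring
  have h1 : (d + 1) * Λ ^ y ≤ Λ ^ (y + 1) := by
    rw [e1]; exact Nat.mul_le_mul_right _ hd
  have h2 : (κ + 1) * Λ ^ (y + 1) ≤ Λ ^ (y + 2) := by
    rw [e2]; exact Nat.mul_le_mul_right _ (by omega)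
  rw [add_mul, one_mul] at h2
  omega

theorem idx_le {lo i N S : ℕ} (hi : i < N) : lo + i * S + S ≤ lo + N * S := by
  have : (i + 1) * S ≤ N * S := Nat.mul_le_mul_right _ hi
  rw [add_mul, one_mul] at this
  omega

/-- passing from a group to one of its children -/
theorem ctx_step {Λ lo hi y S N i0 : ℕ} {F F' : Finset ℕ} {P G : List (ℕ × ℕ)}
    {ch : ℕ → List (ℕ × ℕ)} (hΛ : 0 < Λ) (hP : ∀ p ∈ P, p ∈ G ∨ Out Λ lo hi F p)
    (hG : ∀ p ∈ G, (Λ ^ y ≤ p.2 ∧ Λ ^ y ∣ p.1) ∨ ∃ i < N, p ∈ ch i ∧ Λ ^ (lo + i * S) ≤ p.2 ∧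
      Λ ^ (lo + i * S) ∣ p.1 ∧ ∃ w ∈ F', w ≤ p.1 ∧ p.1 < w + Λ ^ (lo + i * S + S))
    (hF : F ⊆ F') (hy : lo + N * S ≤ y) (hyh : y ≤ hi) (hi0 : i0 < N) :
    ∀ p ∈ P, p ∈ ch i0 ∨ Out Λ (lo + i0 * S) (lo + i0 * S + S) F' p := by
  intro p hp
  have h0 := idx_le (lo := lo) (S := S) hi0
  rcases hP p hp with hg | ho
  · rcases hG p hg with ⟨h1, h2⟩ | ⟨i, hi, hc, h1, h2, w, hw, h3, h4⟩
    · exact Or.inr (Or.inl ⟨(Nat.pow_le_pow_right hΛ (by omega)).trans h1,
        (pow_dvd_pow Λ (by omega)).trans h2⟩)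
    · rcases lt_trichotomy i i0 with hlt | rfl | hgt
      · have h5 := idx_le (lo := lo) (S := S) hlt
        have h6 := Nat.pow_le_pow_right hΛ h5
        exact Or.inr (Or.inr ⟨w, hw, h3, by omega⟩)
      · exact Or.inl hc
      · have h5 := idx_le (lo := lo) (S := S) hgt
        exact Or.inr (Or.inl ⟨(Nat.pow_le_pow_right hΛ h5).trans h1,
          (pow_dvd_pow Λ h5).trans h2⟩)
  · exact Or.inr (ho.mono hΛ (by omega) (by omega) hF)

section edge

variable {n Λ d S q lo w0 st : ℕ} {sub : ℕ → ℕ → List (ℕ × ℕ)} {e : List ℕ}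

theorem grpE_cases {p : ℕ × ℕ} (hp : p ∈ grpE n Λ d sub S q lo w0 st e) :
    (∃ v < n, v ∈ e ∧ ∃ κ ≤ q,
      p.1 = w0 + v * st + κ * Λ ^ (lo + n * q * S + 1) + d * Λ ^ (lo + n * q * S) ∧
        Λ ^ (lo + n * q * S) ≤ p.2) ∨
    ∃ i < n * q, i / q ∈ e ∧
      p ∈ sub (lo + i * S) (w0 + i / q * st + (i % q + 1) * Λ ^ (lo + n * q * S + 1)) := by
  unfold grpE at hp
  rcases List.mem_append.1 hp with hp | hp
  · obtain ⟨v, hv, hp⟩ := List.mem_flatMap.1 hp
    have hv' := List.mem_filter.1 hv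
    exact Or.inl ⟨v, List.mem_range.1 hv'.1, by simpa using hv'.2, anc_cases hp⟩
  · obtain ⟨i, hi, hp⟩ := List.mem_flatMap.1 hp
    have hi' := List.mem_filter.1 hi
    exact Or.inr ⟨i, List.mem_range.1 hi'.1, by simpa using hi'.2, hp⟩

theorem anc_mem_grpE {κ : ℕ} (hv : e.headD 0 < n) (he : e.headD 0 ∈ e) (hκ : κ < q) :
    (w0 + e.headD 0 * st + κ * Λ ^ (lo + n * q * S + 1) + d * Λ ^ (lo + n * q * S),
      sig Λ d (lo + n * q * S)) ∈ grpE n Λ d sub S q lo w0 st e := by
  unfold grpE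
  refine List.mem_append_left _ (List.mem_flatMap.2 ⟨e.headD 0, ?_, ?_⟩)
  · exact List.mem_filter.2 ⟨List.mem_range.2 hv, by simpa using he⟩
  · exact mem_anc hκ.le (by simp [hκ])

theorem sub_mem_grpE {i : ℕ} {p : ℕ × ℕ} (hi : i < n * q) (he : i / q ∈ e)
    (hp : p ∈ sub (lo + i * S) (w0 + i / q * st + (i % q + 1) * Λ ^ (lo + n * q * S + 1))) :
    p ∈ grpE n Λ d sub S q lo w0 st e := by
  unfold grpE
  refine List.mem_append_right _ (List.mem_flatMap.2 ⟨i, ?_, hp⟩)
  exact List.mem_filter.2 ⟨List.mem_range.2 hi, by simpa using he⟩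

theorem sub_base_dvd {i : ℕ} (hi : i < n * q) (hw0 : Λ ^ (lo + n * q * S + 2) ∣ w0)
    (hst : Λ ^ (lo + n * q * S + 2) ∣ st) {h : ℕ} (hh : h ≤ lo + n * q * S + 1) :
    Λ ^ h ∣ w0 + i / q * st + (i % q + 1) * Λ ^ (lo + n * q * S + 1) := by
  have _ := hi
  refine dvd_add (dvd_add ((pow_dvd_pow Λ (by omega)).trans hw0)
    (Dvd.dvd.mul_left ((pow_dvd_pow Λ (by omega)).trans hst) _))
    (Dvd.dvd.mul_left (pow_dvd_pow Λ hh) _)

theorem div_lt_of_lt_mul' {i n q : ℕ} (hi : i < n * q) : i / q < n :=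
  Nat.div_lt_of_lt_mul (by rwa [mul_comm] at hi)

theorem mod_lt_of_lt_mul' {i n q : ℕ} (hi : i < n * q) : i % q < q :=
  Nat.mod_lt _ (Nat.pos_of_ne_zero fun h => by simp [h] at hi)

theorem grpE_props (hΛ : 0 < Λ) (hsub : SubOK Λ S sub) (hw0 : Λ ^ (lo + n * q * S + 2) ∣ w0)
    (hst : Λ ^ (lo + n * q * S + 2) ∣ st) {p : ℕ × ℕ} (hp : p ∈ grpE n Λ d sub S q lo w0 st e) :
    Λ ^ lo ≤ p.2 ∧ Λ ^ lo ∣ p.1 ∧ ∃ v < n, v ∈ e ∧ ∃ κ ≤ q, ∃ ρ < (d + 1) * Λ ^ (lo + n * q * S),
      p.1 = w0 + v * st + κ * Λ ^ (lo + n * q * S + 1) + ρ := by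
  have hU : 0 < Λ ^ (lo + n * q * S) := by positivity
  rcases grpE_cases hp with ⟨v, hv, hve, κ, hκ, h1, h2⟩ | ⟨i, hi, hie, hp⟩
  · refine ⟨(Nat.pow_le_pow_right hΛ (by omega)).trans h2, ?_, v, hv, hve, κ, hκ,
      d * Λ ^ (lo + n * q * S), by rw [add_mul, one_mul]; omega, h1⟩
    rw [h1]
    exact dvd_add (dvd_add (dvd_add ((pow_dvd_pow Λ (by omega)).trans hw0)
      (Dvd.dvd.mul_left ((pow_dvd_pow Λ (by omega)).trans hst) _))
      (Dvd.dvd.mul_left (pow_dvd_pow Λ (by omega)) _))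
      (Dvd.dvd.mul_left (pow_dvd_pow Λ (by omega)) _)
  · have h0 := idx_le (lo := lo) (S := S) hi
    obtain ⟨h1, h2, h3, h4⟩ := hsub _ _ (sub_base_dvd hi hw0 hst (by omega)) p hp
    have h5 := Nat.pow_le_pow_right hΛ h0
    refine ⟨(Nat.pow_le_pow_right hΛ (by omega)).trans h1, (pow_dvd_pow Λ (by omega)).trans h2,
      i / q, div_lt_of_lt_mul' hi, hie, i % q + 1, mod_lt_of_lt_mul' hi,
      p.1 - (w0 + i / q * st + (i % q + 1) * Λ ^ (lo + n * q * S + 1)), ?_, by omega⟩
    rw [add_mul d, one_mul]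
    omega

end edge

section stage

variable {n k Λ S r q lo b : ℕ} {sub : ℕ → ℕ → List (ℕ × ℕ)} {E : List (List ℕ)}

/-- base offset of the edge group number `i` -/
def ew (n m Λ y b i : ℕ) : ℕ := b + (i / m * n + 1) * Λ ^ (y + 1) + i % m * Λ ^ y

theorem stage_cases {p : ℕ × ℕ} (hp : p ∈ stage n E k Λ sub S r q lo b) :
    (∃ κ ≤ r * n, p.1 = b + κ * Λ ^ (lo + r * E.length * (n * q * S + 2) + 1) +
        E.length * Λ ^ (lo + r * E.length * (n * q * S + 2)) ∧
        Λ ^ (lo + r * E.length * (n * q * S + 2)) ≤ p.2) ∨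
    ∃ i < r * E.length, p ∈ grpE n Λ E.length sub S q (lo + i * (n * q * S + 2))
        (ew n E.length Λ (lo + r * E.length * (n * q * S + 2)) b i)
        (Λ ^ (lo + r * E.length * (n * q * S + 2) + 1)) (E.getD (i % E.length) []) := by
  unfold stage at hp
  rcases List.mem_append.1 hp with hp | hp
  · exact Or.inl (anc_cases hp)
  · obtain ⟨i, hi, hp⟩ := List.mem_flatMap.1 hp
    exact Or.inr ⟨i, List.mem_range.1 hi, hp⟩

theorem anc_mem_stage {κ : ℕ} (hκ : κ < r * n) (hk : κ % n < k) :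
    (b + κ * Λ ^ (lo + r * E.length * (n * q * S + 2) + 1) +
        E.length * Λ ^ (lo + r * E.length * (n * q * S + 2)),
      sig Λ E.length (lo + r * E.length * (n * q * S + 2))) ∈ stage n E k Λ sub S r q lo b := by
  unfold stage
  exact List.mem_append_left _ (mem_anc hκ.le (by simp [hκ, hk]))

theorem grpE_mem_stage {i : ℕ} {p : ℕ × ℕ} (hi : i < r * E.length)
    (hp : p ∈ grpE n Λ E.length sub S q (lo + i * (n * q * S + 2))
        (ew n E.length Λ (lo + r * E.length * (n * q * S + 2)) b i)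
        (Λ ^ (lo + r * E.length * (n * q * S + 2) + 1)) (E.getD (i % E.length) [])) :
    p ∈ stage n E k Λ sub S r q lo b := by
  unfold stage
  exact List.mem_append_right _ (List.mem_flatMap.2 ⟨i, List.mem_range.2 hi, hp⟩)

theorem ew_dvd {m y i h : ℕ} (hb : Λ ^ (y + 2) ∣ b) (hh : h ≤ y) : Λ ^ h ∣ ew n m Λ y b i := by
  unfold ew
  exact dvd_add (dvd_add ((pow_dvd_pow Λ (by omega)).trans hb)
    (Dvd.dvd.mul_left (pow_dvd_pow Λ (by omega)) _)) (Dvd.dvd.mul_left (pow_dvd_pow Λ hh) _)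

theorem ew_eq {m y i : ℕ} (v : ℕ) : ew n m Λ y b i + v * Λ ^ (y + 1) =
    b + (i / m * n + v + 1) * Λ ^ (y + 1) + i % m * Λ ^ y := by
  unfold ew
  ring

theorem cv_lt {c v r n : ℕ} (hc : c < r) (hv : v < n) : c * n + v < r * n := by
  have : (c + 1) * n ≤ r * n := Nat.mul_le_mul_right _ hc
  rw [add_mul, one_mul] at this
  omega

/-- the points of an edge group of a stage -/
theorem stage_grp_props (hsub : SubOK Λ S sub) (hq : q + 1 ≤ Λ) (hd : E.length + 1 ≤ Λ)
    (hb : Λ ^ (lo + r * E.length * (n * q * S + 2) + 2) ∣ b) {i : ℕ} (hi : i < r * E.length)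
    {p : ℕ × ℕ}
    (hp : p ∈ grpE n Λ E.length sub S q (lo + i * (n * q * S + 2))
        (ew n E.length Λ (lo + r * E.length * (n * q * S + 2)) b i)
        (Λ ^ (lo + r * E.length * (n * q * S + 2) + 1)) (E.getD (i % E.length) [])) :
    Λ ^ (lo + i * (n * q * S + 2)) ≤ p.2 ∧ Λ ^ (lo + i * (n * q * S + 2)) ∣ p.1 ∧
      ∃ v < n, ew n E.length Λ (lo + r * E.length * (n * q * S + 2)) b i +
          v * Λ ^ (lo + r * E.length * (n * q * S + 2) + 1) ≤ p.1 ∧
        p.1 < ew n E.length Λ (lo + r * E.length * (n * q * S + 2)) b i +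
          v * Λ ^ (lo + r * E.length * (n * q * S + 2) + 1) +
          Λ ^ (lo + i * (n * q * S + 2) + (n * q * S + 2)) := by
  have h0 := idx_le (lo := lo) (S := n * q * S + 2) hi
  obtain ⟨h1, h2, v, hv, -, κ, hκ, ρ, hρ, h3⟩ := grpE_props (by omega) hsub
    (ew_dvd hb (by omega)) (pow_dvd_pow Λ (by omega)) hp
  have h4 := clu_lt hκ hq hρ hd
  refine ⟨h1, h2, v, hv, by omega, ?_⟩
  rw [← add_assoc]
  omega

theorem stage_props (hsub : SubOK Λ S sub) (hq : q + 1 ≤ Λ) (hd : E.length + 1 ≤ Λ)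
    (hb : Λ ^ (lo + r * E.length * (n * q * S + 2) + 2) ∣ b) {p : ℕ × ℕ}
    (hp : p ∈ stage n E k Λ sub S r q lo b) :
    Λ ^ lo ≤ p.2 ∧ Λ ^ lo ∣ p.1 ∧
      ∃ κ ≤ r * n, ∃ ρ < (E.length + 1) * Λ ^ (lo + r * E.length * (n * q * S + 2)),
        p.1 = b + κ * Λ ^ (lo + r * E.length * (n * q * S + 2) + 1) + ρ := by
  have hΛ : 0 < Λ := by omega
  have hU : 0 < Λ ^ (lo + r * E.length * (n * q * S + 2)) := by positivity
  rcases stage_cases hp with ⟨κ, hκ, h1, h2⟩ | ⟨i, hi, hp⟩
  · refine ⟨(Nat.pow_le_pow_right hΛ (by omega)).trans h2, ?_, κ, hκ,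
      E.length * Λ ^ (lo + r * E.length * (n * q * S + 2)), by rw [add_mul, one_mul]; omega, h1⟩
    rw [h1]
    exact dvd_add (dvd_add ((pow_dvd_pow Λ (by omega)).trans hb)
      (Dvd.dvd.mul_left (pow_dvd_pow Λ (by omega)) _))
      (Dvd.dvd.mul_left (pow_dvd_pow Λ (by omega)) _)
  · have h0 := idx_le (lo := lo) (S := n * q * S + 2) hi
    obtain ⟨h1, h2, v, hv, h3, h4⟩ := stage_grp_props hsub hq hd hb hi hp
    have h5 := Nat.pow_le_pow_right hΛ h0
    rw [ew_eq] at h3 h4
    have h6 : i % E.length + 1 ≤ E.length + 1 := by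
      have := mod_lt_of_lt_mul' hi
      omega
    have h7 := Nat.mul_le_mul_right (Λ ^ (lo + r * E.length * (n * q * S + 2))) h6
    have h8 := cv_lt (div_lt_of_lt_mul' hi) hv
    refine ⟨(Nat.pow_le_pow_right hΛ (by omega)).trans h1, (pow_dvd_pow Λ (by omega)).trans h2,
      i / E.length * n + v + 1, h8,
      p.1 - (b + (i / E.length * n + v + 1) * Λ ^ (lo + r * E.length * (n * q * S + 2) + 1)),
      ?_, by omega⟩
    rw [add_mul, one_mul] at h7
    omega

theorem stage_subOK (hsub : SubOK Λ S sub) (hq : q + 1 ≤ Λ) (hd : E.length + 1 ≤ Λ)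
    (hr : r * n + 1 ≤ Λ) :
    SubOK Λ (r * E.length * (n * q * S + 2) + 2) (stage n E k Λ sub S r q) := by
  intro lo b hb p hp
  rw [← add_assoc] at hb ⊢
  obtain ⟨h1, h2, κ, hκ, ρ, hρ, h3⟩ := stage_props hsub hq hd hb hp
  have h4 := clu_lt hκ hr hρ hd
  exact ⟨h1, h2, by omega, by omega⟩

end stage

end Crest.Agent.T318.C25
end

-- ▼ part T318/No_25
section

/-!
# Row 318, NO side, part C: the descent
-/

set_option autoImplicit false

namespace Crest.Agent.T318.C25

/-- every occurrence of the block `sub` (with frontier `≤ φ`) leaves room for `g` more triples -/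
def NoProp (P : List (ℕ × ℕ)) (K D T J : ℕ) (Q : Multiset (ℕ × ℕ × ℕ)) (Λ S φ g : ℕ)
    (sub : ℕ → ℕ → List (ℕ × ℕ)) : Prop :=
  ∀ lo b (F : Finset ℕ), (∀ p ∈ sub lo b, p ∈ P) →
    (∀ p ∈ P, p ∈ sub lo b ∨ Out Λ lo (lo + S) F p) → (∀ w ∈ F, Λ ^ (lo + S) ∣ w) → F.card ≤ φ →
    Λ ^ (lo + S) ∣ b → Λ ^ (lo + S) ∣ T → Λ ^ (lo + S) ≤ J → span Λ Q b (lo + S) + g ≤ K + D

theorem sum_range_mul (f : ℕ → ℕ) (r n : ℕ) :
    ∑ κ ∈ Finset.range (r * n), f κ = ∑ c ∈ Finset.range r, ∑ v ∈ Finset.range n, f (c * n + v) := by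
  induction r with
  | zero => simp
  | succ r ih => rw [add_mul, one_mul, Finset.sum_range_add, ih, Finset.sum_range_succ]

theorem cv_div {c v n : ℕ} (hv : v < n) : (c * n + v) / n = c := by
  rw [mul_comm, Nat.mul_add_div (by omega), Nat.div_eq_of_lt hv, add_zero]

theorem cv_mod {c v n : ℕ} (hv : v < n) : (c * n + v) % n = v := by
  rw [mul_comm, Nat.mul_add_mod, Nat.mod_eq_of_lt hv]

variable {P : List (ℕ × ℕ)} {K D T J : ℕ} {Q : Multiset (ℕ × ℕ × ℕ)}

section edge

variable {n Λ d S q lo w0 st : ℕ} {sub : ℕ → ℕ → List (ℕ × ℕ)} {e : List ℕ} {F : Finset ℕ}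

/-- descent from a window of an edge group into one of its clusters -/
theorem edge_step {φ g : ℕ} (hsub : SubOK Λ S sub) (hno : NoProp P K D T J Q Λ S φ g sub)
    (hq : q + 1 ≤ Λ) (hd : 2 * d + 1 ≤ Λ) (h3 : 3 ≤ Λ)
    (hin : ∀ p ∈ grpE n Λ d sub S q lo w0 st e, p ∈ P)
    (hctx : ∀ p ∈ P, p ∈ grpE n Λ d sub S q lo w0 st e ∨ Out Λ lo (lo + n * q * S + 2) F p)
    (hF : ∀ w ∈ F, Λ ^ (lo + n * q * S + 2) ∣ w) (hφ : F.card + n * q ≤ φ)
    (hw0 : Λ ^ (lo + n * q * S + 2) ∣ w0) (hst : Λ ^ (lo + n * q * S + 2) ∣ st)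
    (hT : Λ ^ (lo + n * q * S + 2) ∣ T) (hJ : Λ ^ (lo + n * q * S + 2) ≤ J)
    {v κ : ℕ} (hv : v < n) (hve : v ∈ e) (hκ : κ < q) :
    span Λ Q (w0 + v * st) (lo + n * q * S + 2) + sk Λ d Q (lo + n * q * S) (w0 + v * st) κ + g ≤
      K + D := by
  have hΛ : 0 < Λ := by omega
  have hi0 : v * q + κ < n * q := cv_lt hv hκ
  have h0 := idx_le (lo := lo) (S := S) hi0
  let base : ℕ → ℕ := fun i => w0 + i / q * st + (i % q + 1) * Λ ^ (lo + n * q * S + 1)
  have hctx' := ctx_step (y := lo + n * q * S) (S := S) (N := n * q) (i0 := v * q + κ)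
    (F' := F ∪ (Finset.range (n * q)).image base) (ch := fun i => sub (lo + i * S) (base i))
    hΛ hctx (fun p hp => by
      rcases grpE_cases hp with ⟨v, hv, hve, κ, hκ, h1, h2⟩ | ⟨i, hi, hie, hp⟩
      · refine Or.inl ⟨h2, ?_⟩
        rw [h1]
        exact dvd_add (dvd_add (dvd_add ((pow_dvd_pow Λ (by omega)).trans hw0)
          (Dvd.dvd.mul_left ((pow_dvd_pow Λ (by omega)).trans hst) _))
          (Dvd.dvd.mul_left (pow_dvd_pow Λ (by omega)) _)) (Dvd.dvd.mul_left dvd_rfl _)
      · have h0 := idx_le (lo := lo) (S := S) hi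
        obtain ⟨h1, h2, h3, h4⟩ := hsub _ _ (sub_base_dvd hi hw0 hst (by omega)) p hp
        exact Or.inr ⟨i, hi, hp, h1, h2, base i, Finset.mem_union_right _
          (Finset.mem_image_of_mem _ (Finset.mem_range.2 hi)), h3, h4⟩)
    Finset.subset_union_left le_rfl (by omega) hi0
  have hb : base (v * q + κ) = w0 + v * st + (κ + 1) * Λ ^ (lo + n * q * S + 1) := by
    simp only [base, cv_div hκ, cv_mod hκ]
  have h1 := hno (lo + (v * q + κ) * S) (base (v * q + κ)) (F ∪ (Finset.range (n * q)).image base)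
    (fun p hp => hin p (sub_mem_grpE hi0 (by rwa [cv_div hκ]) hp)) hctx'
    (fun w hw => by
      rcases Finset.mem_union.1 hw with hw | hw
      · exact (pow_dvd_pow Λ (by omega)).trans (hF w hw)
      · obtain ⟨i, hi, rfl⟩ := Finset.mem_image.1 hw
        exact sub_base_dvd (Finset.mem_range.1 hi) hw0 hst (by omega))
    (by
      have a1 := Finset.card_union_le F ((Finset.range (n * q)).image base)
      have a2 := Finset.card_image_le (s := Finset.range (n * q)) (f := base)
      rw [Finset.card_range] at a2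
      omega)
    (sub_base_dvd hi0 hw0 hst (by omega)) ((pow_dvd_pow Λ (by omega)).trans hT)
    ((Nat.pow_le_pow_right hΛ (by omega)).trans hJ)
  have h2 := span_step (Λ := Λ) (d := d) (y := lo + n * q * S) (w := w0 + v * st) (κ := κ)
    (w' := base (v * q + κ)) (h' := lo + (v * q + κ) * S + S) Q hd h3 h0 (by omega) hb.ge (by
      have a1 : Λ ^ (lo + (v * q + κ) * S + S) ≤ Λ ^ (lo + n * q * S + 1) :=
        Nat.pow_le_pow_right hΛ (by omega)
      have a2 : (κ + 2) * Λ ^ (lo + n * q * S + 1) =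
          (κ + 1) * Λ ^ (lo + n * q * S + 1) + Λ ^ (lo + n * q * S + 1) := by ring
      omega)
  omega

/-- some cluster of an edge group is spanned by a special job -/
theorem edge_group (hA : Amb P K D T J Q) (hsub : SubOK Λ S sub)
    (hq : q + 1 ≤ Λ) (hd : 2 * d + 1 ≤ Λ) (h3 : 3 ≤ Λ)
    (hin : ∀ p ∈ grpE n Λ d sub S q lo w0 st e, p ∈ P)
    (hctx : ∀ p ∈ P, p ∈ grpE n Λ d sub S q lo w0 st e ∨ Out Λ lo (lo + n * q * S + 2) F p)
    (hF : ∀ w ∈ F, Λ ^ (lo + n * q * S + 2) ∣ w) (hφ : D + (K + D) * (F.card + n) < q)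
    (hw0 : Λ ^ (lo + n * q * S + 2) ∣ w0) (hst : Λ ^ (lo + n * q * S + 2) ∣ st)
    (hT : Λ ^ (lo + n * q * S + 2) ∣ T) (hJ : Λ ^ (lo + n * q * S + 2) ≤ J)
    (hne : e ≠ []) (hlt : ∀ v ∈ e, v < n) :
    ∃ v ∈ e, ∃ κ < q, 1 ≤ sk Λ d Q (lo + n * q * S) (w0 + v * st) κ := by
  classical
  have hΛ : 0 < Λ := by omega
  let W : Finset ℕ := ((Finset.range n).filter fun v => v ∈ e).image fun v => w0 + v * st
  have hWc : W.card ≤ n := by
    refine Finset.card_image_le.trans ((Finset.card_filter_le _ _).trans ?_)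
    simp
  have h1 := hA.group (Λ := Λ) (d := d) (lo := lo) (y := lo + n * q * S) (q := q) (F := F) (W := W)
    (by omega) hF
    (fun w hw => by
      obtain ⟨v, -, rfl⟩ := Finset.mem_image.1 hw
      exact dvd_add hw0 (Dvd.dvd.mul_left hst _))
    hT hJ hq hd h3 fun p hp => by
      rcases hctx p hp with hg | ho
      · obtain ⟨-, -, v, hv, hve, κ, hκ, ρ, hρ, h3⟩ := grpE_props hΛ hsub hw0 hst hg
        exact Or.inr ⟨w0 + v * st, Finset.mem_image_of_mem _
          (Finset.mem_filter.2 ⟨Finset.mem_range.2 hv, hve⟩), κ, hκ, ρ, hρ, h3⟩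
      · exact Or.inl ho
  have hhe : e.headD 0 ∈ e := by
    cases e with
    | nil => exact absurd rfl hne
    | cons a t => simp
  have h2 := card_le_cnt (p := fun p : ℕ × ℕ => p.2 = sig Λ d (lo + n * q * S))
    (s := (P : Multiset (ℕ × ℕ)))
    ((Finset.range q).image fun κ =>
      (w0 + e.headD 0 * st + κ * Λ ^ (lo + n * q * S + 1) + d * Λ ^ (lo + n * q * S),
        sig Λ d (lo + n * q * S))) fun a ha => by
      obtain ⟨κ, hκ, rfl⟩ := Finset.mem_image.1 ha
      exact ⟨hin _ (anc_mem_grpE (hlt _ hhe) hhe (Finset.mem_range.1 hκ)), rfl⟩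
  rw [Finset.card_image_of_injective _ (fun a b hab => by
    have hV : 0 < Λ ^ (lo + n * q * S + 1) := by positivity
    have := (Prod.ext_iff.1 hab).1
    dsimp only at this
    exact Nat.eq_of_mul_eq_mul_right hV (by omega)), Finset.card_range] at h2
  by_contra hcon
  push Not at hcon
  have h4 : ∑ w ∈ W, ∑ κ ∈ Finset.range q, sk Λ d Q (lo + n * q * S) w κ = 0 := by
    refine Finset.sum_eq_zero fun w hw => Finset.sum_eq_zero fun κ hκ => ?_
    obtain ⟨v, hv, rfl⟩ := Finset.mem_image.1 hw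
    have := hcon v (Finset.mem_filter.1 hv).2 κ (Finset.mem_range.1 hκ)
    omega
  have h5 : (K + D) * (F.card + W.card) ≤ (K + D) * (F.card + n) :=
    Nat.mul_le_mul_left _ (by omega)
  omega

end edge

theorem exists_idx {E : List (List ℕ)} {e : List ℕ} (he : e ∈ E) :
    ∃ a < E.length, E.getD a [] = e := by
  obtain ⟨a, ha, rfl⟩ := List.getElem_of_mem he
  exact ⟨a, ha, by simp [List.getD_eq_getElem?_getD, ha]⟩

section stage

variable {n k Λ S r q : ℕ} {sub : ℕ → ℕ → List (ℕ × ℕ)} {E : List (List ℕ)}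

theorem stage_step {φ φ' g : ℕ} (hA : Amb P K D T J Q) (hwf : WF n E k) (hno : NoIS n E k)
    (hsub : SubOK Λ S sub) (hno' : NoProp P K D T J Q Λ S φ' g sub)
    (hq : q + 1 ≤ Λ) (hd : 2 * E.length + 1 ≤ Λ) (h3 : 3 ≤ Λ) (hr : r * n + 1 ≤ Λ)
    (hr' : D + (K + D) * (φ + 1) < r) (hq' : D + (K + D) * (φ + r * E.length * n + n) < q)
    (hφ' : φ + r * E.length * n + n * q ≤ φ') :
    NoProp P K D T J Q Λ (r * E.length * (n * q * S + 2) + 2) φ (g + 2)
      (stage n E k Λ sub S r q) := by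
  classical
  intro lo b F hin hctx hF hφ hb hT hJ
  rw [← add_assoc] at hctx hF hb hT hJ
  rw [← add_assoc lo]
  have hΛ : 0 < Λ := by omega
  generalize hy : lo + r * E.length * (n * q * S + 2) = y at *
  -- the root group
  have h1 := hA.group (Λ := Λ) (d := E.length) (lo := lo) (y := y) (q := r * n) (F := F) (W := {b})
    (by omega) hF (by simpa using hb) hT hJ hr hd h3 fun p hp => by
      rcases hctx p hp with hg | ho
      · obtain ⟨-, -, κ, hκ, ρ, hρ, h3⟩ := stage_props hsub hq (by omega) (hy ▸ hb) hg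
        rw [hy] at hρ h3
        exact Or.inr ⟨b, Finset.mem_singleton_self _, κ, hκ, ρ, hρ, h3⟩
      · exact Or.inl ho
  rw [Finset.sum_singleton, Finset.card_singleton, sum_range_mul] at h1
  have h2 := card_le_cnt (p := fun p : ℕ × ℕ => p.2 = sig Λ E.length y)
    (s := (P : Multiset (ℕ × ℕ)))
    ((Finset.range r ×ˢ Finset.range k).image fun x =>
      (b + (x.1 * n + x.2) * Λ ^ (y + 1) + E.length * Λ ^ y, sig Λ E.length y)) fun a ha => by
      obtain ⟨x, hx, rfl⟩ := Finset.mem_image.1 ha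
      obtain ⟨hx1, hx2⟩ := Finset.mem_product.1 hx
      have hx3 : x.2 < n := lt_of_lt_of_le (Finset.mem_range.1 hx2) hwf.kle
      refine ⟨hin _ ?_, rfl⟩
      have := anc_mem_stage (E := E) (k := k) (Λ := Λ) (S := S) (q := q) (lo := lo) (b := b)
        (sub := sub) (cv_lt (Finset.mem_range.1 hx1) hx3)
        (by rw [cv_mod hx3]; exact Finset.mem_range.1 hx2)
      rwa [hy] at this
  rw [Finset.card_image_of_injOn (fun a ha c hc hac => by
    have hV : 0 < Λ ^ (y + 1) := by positivity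
    have h := (Prod.ext_iff.1 hac).1
    dsimp only at h
    have h' : a.1 * n + a.2 = c.1 * n + c.2 := Nat.eq_of_mul_eq_mul_right hV (by omega)
    have ha2 : a.2 < n :=
      lt_of_lt_of_le (Finset.mem_range.1 (Finset.mem_product.1 ha).2) hwf.kle
    have hc2 : c.2 < n :=
      lt_of_lt_of_le (Finset.mem_range.1 (Finset.mem_product.1 hc).2) hwf.kle
    refine Prod.ext ?_ ?_
    · rw [← cv_div (c := a.1) ha2, h', cv_div hc2]
    · rw [← cv_mod (c := a.1) ha2, h', cv_mod hc2]), Finset.card_product, Finset.card_range,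
    Finset.card_range] at h2
  -- a good copy
  obtain ⟨c, hc, hck⟩ : ∃ c < r, k ≤ ∑ v ∈ Finset.range n, sk Λ E.length Q y b (c * n + v) := by
    by_contra hcon
    push Not at hcon
    have a1 : ∑ c ∈ Finset.range r, (∑ v ∈ Finset.range n, sk Λ E.length Q y b (c * n + v) + 1) ≤
        ∑ _c ∈ Finset.range r, k :=
      Finset.sum_le_sum fun c hc => hcon c (Finset.mem_range.1 hc)
    rw [Finset.sum_add_distrib] at a1
    simp only [Finset.sum_const, Finset.card_range, smul_eq_mul, mul_one] at a1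
    have a2 : (K + D) * (F.card + 1) ≤ (K + D) * (φ + 1) := Nat.mul_le_mul_left _ (by omega)
    omega
  -- the edge groups of this copy
  let F1 : Finset ℕ := F ∪ (Finset.range (r * E.length) ×ˢ Finset.range n).image
    fun x => ew n E.length Λ y b x.1 + x.2 * Λ ^ (y + 1)
  have hF1c : F1.card ≤ φ + r * E.length * n := by
    refine (Finset.card_union_le _ _).trans (Nat.add_le_add hφ (Finset.card_image_le.trans ?_))
    simp
  have hF1d : ∀ w ∈ F1, Λ ^ y ∣ w := fun w hw => by
    rcases Finset.mem_union.1 hw with hw | hw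
    · exact (pow_dvd_pow Λ (by omega)).trans (hF w hw)
    · obtain ⟨x, -, rfl⟩ := Finset.mem_image.1 hw
      exact dvd_add (ew_dvd hb le_rfl) (Dvd.dvd.mul_left (pow_dvd_pow Λ (by omega)) _)
  have hctx1 : ∀ i < r * E.length, ∀ p ∈ P,
      p ∈ grpE n Λ E.length sub S q (lo + i * (n * q * S + 2)) (ew n E.length Λ y b i)
        (Λ ^ (y + 1)) (E.getD (i % E.length) []) ∨
      Out Λ (lo + i * (n * q * S + 2)) (lo + i * (n * q * S + 2) + (n * q * S + 2)) F1 p :=
    fun i hi => ctx_step (y := y) (S := n * q * S + 2) (N := r * E.length) (i0 := i) (F' := F1)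
      (ch := fun i => grpE n Λ E.length sub S q (lo + i * (n * q * S + 2)) (ew n E.length Λ y b i)
        (Λ ^ (y + 1)) (E.getD (i % E.length) [])) hΛ hctx (fun p hp => by
        rcases stage_cases hp with ⟨κ, hκ, h1, h2⟩ | ⟨i, hi, hp⟩
        · rw [hy] at h1 h2
          refine Or.inl ⟨h2, ?_⟩
          rw [h1]
          exact dvd_add (dvd_add ((pow_dvd_pow Λ (by omega)).trans hb)
            (Dvd.dvd.mul_left (pow_dvd_pow Λ (by omega)) _)) (Dvd.dvd.mul_left dvd_rfl _)
        · obtain ⟨h1, h2, v, hv, h3, h4⟩ := stage_grp_props hsub hq (by omega) (hy ▸ hb) hi hp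
          rw [hy] at hp h3 h4
          exact Or.inr ⟨i, hi, hp, h1, h2, _, Finset.mem_union_right _ (Finset.mem_image.2
            ⟨(i, v), Finset.mem_product.2 ⟨Finset.mem_range.2 hi, Finset.mem_range.2 hv⟩, rfl⟩),
            h3, h4⟩)
      Finset.subset_union_left hy.le (by omega) hi
  have hin1 : ∀ i < r * E.length, ∀ p ∈ grpE n Λ E.length sub S q (lo + i * (n * q * S + 2))
      (ew n E.length Λ y b i) (Λ ^ (y + 1)) (E.getD (i % E.length) []), p ∈ P :=
    fun i hi p hp => hin p (grpE_mem_stage hi (by rw [hy]; exact hp))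
  have hlev : ∀ i < r * E.length, lo + i * (n * q * S + 2) + n * q * S + 2 ≤ y := fun i hi => by
    have := idx_le (lo := lo) (S := n * q * S + 2) hi
    omega
  -- two special jobs in nested clusters
  obtain ⟨a, ha, v, hve, κ, hκ, h2⟩ : ∃ a < E.length, ∃ v ∈ E.getD a [], ∃ κ < q,
      2 ≤ sk Λ E.length Q y b (c * n + v) +
        sk Λ E.length Q (lo + (c * E.length + a) * (n * q * S + 2) + n * q * S)
          (ew n E.length Λ y b (c * E.length + a) + v * Λ ^ (y + 1)) κ := by
    by_cases hA2 : ∃ v < n, 2 ≤ sk Λ E.length Q y b (c * n + v)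
    · obtain ⟨v, hv, h2⟩ := hA2
      obtain ⟨e, he, hve⟩ := hwf.cov v hv
      obtain ⟨a, ha, rfl⟩ := exists_idx he
      exact ⟨a, ha, v, hve, 0, by omega, by omega⟩
    · push Not at hA2
      let S1 : Finset ℕ := (Finset.range n).filter fun v => 1 ≤ sk Λ E.length Q y b (c * n + v)
      have hS1 : k ≤ S1.card := by
        refine hck.trans ?_
        rw [Finset.card_filter]
        refine Finset.sum_le_sum fun v hv => ?_
        have := hA2 v (Finset.mem_range.1 hv)
        split_ifs <;> omega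
      obtain ⟨e, he, hS⟩ : ∃ e ∈ E, ∀ v ∈ e, v ∈ S1 := by
        by_contra hcon
        push Not at hcon
        have := hno S1 (Finset.filter_subset _ _) hcon
        omega
      obtain ⟨a, ha, rfl⟩ := exists_idx he
      have hi := cv_lt hc ha
      have hl := hlev _ hi
      have hin2 := hin1 _ hi
      have hctx2 := hctx1 _ hi
      rw [cv_mod ha] at hin2 hctx2
      rw [← add_assoc] at hctx2
      obtain ⟨v, hve, κ, hκ, h4⟩ := edge_group hA hsub hq hd h3 hin2 hctx2
        (fun w hw => (pow_dvd_pow Λ hl).trans (hF1d w hw))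
        (lt_of_le_of_lt (Nat.add_le_add_left (Nat.mul_le_mul_left _ (by omega)) _) hq')
        (ew_dvd hb hl) (pow_dvd_pow Λ (by omega)) ((pow_dvd_pow Λ (by omega)).trans hT)
        ((Nat.pow_le_pow_right hΛ (by omega)).trans hJ) (hwf.ne _ he) (hwf.lt _ he)
      have h5 := (Finset.mem_filter.1 (hS v hve)).2
      exact ⟨a, ha, v, hve, κ, hκ, by omega⟩
  have he : E.getD a [] ∈ E := by simp [List.getD_eq_getElem?_getD, ha]
  have hv := hwf.lt _ he v hve
  have hi := cv_lt hc ha
  have hl := hlev _ hi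
  have hin2 := hin1 _ hi
  have hctx2 := hctx1 _ hi
  rw [cv_mod ha] at hin2 hctx2
  rw [← add_assoc] at hctx2
  have h4 := edge_step hsub hno' hq hd h3 hin2 hctx2
    (fun w hw => (pow_dvd_pow Λ hl).trans (hF1d w hw)) (by omega)
    (ew_dvd hb hl) (pow_dvd_pow Λ (by omega)) ((pow_dvd_pow Λ (by omega)).trans hT)
    ((Nat.pow_le_pow_right hΛ (by omega)).trans hJ) hv hve hκ
  have hcv := cv_lt hc hv
  have h5 := span_step (Λ := Λ) (d := E.length) (y := y) (w := b) (κ := c * n + v)
    (w' := ew n E.length Λ y b (c * E.length + a) + v * Λ ^ (y + 1))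
    (h' := lo + (c * E.length + a) * (n * q * S + 2) + n * q * S + 2) Q hd h3 hl (by omega)
    (by rw [ew_eq, cv_div ha]; omega) (by
      rw [ew_eq, cv_div ha, cv_mod ha]
      have a1 := Nat.pow_le_pow_right hΛ hl
      have a2 : (a + 1) * Λ ^ y ≤ Λ * Λ ^ y := Nat.mul_le_mul_right _ (by omega)
      have a3 : (c * n + v + 2) * Λ ^ (y + 1) = (c * n + v + 1) * Λ ^ (y + 1) + Λ * Λ ^ y := by ring
      rw [add_mul, one_mul] at a2
      omega)
  omega

end stage

theorem le_ph2 (n m G D φ : ℕ) : φ ≤ ph2 n m G D φ := by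
  unfold ph2 ph1
  omega

theorem le_iter_ph2 (n m G D j φ : ℕ) : φ ≤ (ph2 n m G D)^[j] φ := by
  induction j generalizing φ with
  | zero => exact le_rfl
  | succ j ih => exact (le_ph2 n m G D φ).trans (ih _)

theorem blk_no {n k Λ : ℕ} {E : List (List ℕ)} (hA : Amb P K D T J Q) (hwf : WF n E k)
    (hno : NoIS n E k) (hd : 2 * E.length + 1 ≤ Λ) (h3 : 3 ≤ Λ) (j φ : ℕ)
    (hφ : (ph2 n E.length (K + D) D)^[j] φ < Λ) :
    SubOK Λ (szX n E.length (K + D) D j φ) (blkX n E k (K + D) D Λ j φ) ∧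
      NoProp P K D T J Q Λ (szX n E.length (K + D) D j φ) φ (2 * j)
        (blkX n E k (K + D) D Λ j φ) := by
  induction j generalizing φ with
  | zero =>
    refine ⟨fun lo b _ p hp => by simp [blkX] at hp, fun lo b F _ _ _ _ _ _ _ => ?_⟩
    simpa using hA.span_le (by omega) _ _
  | succ j ih =>
    rw [Function.iterate_succ_apply] at hφ
    obtain ⟨h1, h2⟩ := ih _ hφ
    have h4 := (le_iter_ph2 n E.length (K + D) D j _).trans_lt hφ
    have hm : 0 < E.length := by
      obtain ⟨e, he, -⟩ := hwf.cov 0 hwf.npos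
      exact List.length_pos_of_mem he
    have hq : qq n E.length (K + D) D φ + 1 ≤ Λ := by
      have : 1 * qq n E.length (K + D) D φ ≤ n * qq n E.length (K + D) D φ :=
        Nat.mul_le_mul_right _ hwf.npos
      unfold ph2 at h4
      omega
    have hr : rr (K + D) D φ * n + 1 ≤ Λ := by
      have : rr (K + D) D φ * 1 * n ≤ rr (K + D) D φ * E.length * n :=
        Nat.mul_le_mul_right _ (Nat.mul_le_mul_left _ hm)
      rw [mul_one] at this
      unfold ph2 ph1 at h4
      omega
    exact ⟨stage_subOK h1 hq (by omega) hr,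
      stage_step hA hwf hno h1 h2 hq hd h3 hr (Nat.lt_succ_self _) (Nat.lt_succ_self _) le_rfl⟩

/-- the NO leaf -/
theorem no_25 : NoStmt := by
  intro D n E k hwf hno Q hf hA hB hZ hc
  have hamb : Amb (pts D n E k) (D + 3) D (2 * lam D n E ^ top D n E) (lam D n E ^ top D n E) Q :=
    ⟨hf, hA, hB, hZ, by simpa [instA] using hc⟩
  have hG : D + 3 + D = 2 * D + 3 := by ring
  obtain ⟨-, h⟩ := blk_no (Λ := lam D n E) hamb hwf hno (by unfold lam; omega)
    (by unfold lam; omega) (D + 2) 0 (by rw [hG]; unfold lam; omega)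
  rw [hG] at h
  have := h 0 (lam D n E ^ top D n E) ∅ (fun p hp => hp) (fun p hp => Or.inl hp) (by simp) (by simp)
    (by rw [zero_add]; exact dvd_rfl) (by rw [zero_add]; exact Dvd.intro_left 2 rfl)
    (by rw [zero_add]; exact le_rfl)
  omega

end Crest.Agent.T318.C25
end

-- ▼ part T318/Yes_15
section

/-!
# Row 318: the YES leaf of `Defs_25` (helper15)
-/

set_option autoImplicit false

namespace Crest.Agent.T318.C25

namespace Yes15

open Finset

/-! ### nested Hall -/

theorem exists_max_ms {α : Type} (s : Multiset α) (f : α → ℕ) (h : s ≠ 0) :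
    ∃ a ∈ s, ∀ b ∈ s, f b ≤ f a := by
  classical
  obtain ⟨a, ha, h'⟩ := Finset.exists_max_image s.toFinset f (Multiset.toFinset_nonempty.2 h)
  exact ⟨a, Multiset.mem_toFinset.1 ha, fun b hb => h' b (Multiset.mem_toFinset.2 hb)⟩

theorem hall (N : ℕ) : ∀ (R : Multiset (ℕ × ℕ)) (B : Multiset ℕ), Multiset.card R = N →
    Multiset.card B = N →
    (∀ θ : ℕ, R.countP (fun r => θ ≤ r.1 + r.2) ≤ B.countP (fun b => θ ≤ b)) →
    ∃ Q : Multiset (ℕ × ℕ × ℕ), (∀ q ∈ Q, q.1 + q.2.2 ≤ q.2.1) ∧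
      Q.map (fun q => (q.1, q.2.2)) = R ∧ Q.map (fun q => q.2.1) = B := by
  induction N with
  | zero =>
    intro R B hR hB _
    refine ⟨0, by simp, ?_, ?_⟩
    · simp [Multiset.card_eq_zero.1 hR]
    · simp [Multiset.card_eq_zero.1 hB]
  | succ N ih =>
    intro R B hR hB h
    have hR0 : R ≠ 0 := by rintro rfl; simp at hR
    have hB0 : B ≠ 0 := by rintro rfl; simp at hB
    obtain ⟨r0, hr0, hrmax⟩ := exists_max_ms R (fun r => r.1 + r.2) hR0
    obtain ⟨b0, hb0, hbmax⟩ := exists_max_ms B (fun b => b) hB0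
    obtain ⟨R', rfl⟩ := Multiset.exists_cons_of_mem hr0
    obtain ⟨B', rfl⟩ := Multiset.exists_cons_of_mem hb0
    have hle : r0.1 + r0.2 ≤ b0 := by
      have h1 := h (r0.1 + r0.2)
      have h2 : 0 < Multiset.countP (fun r : ℕ × ℕ => r0.1 + r0.2 ≤ r.1 + r.2) (r0 ::ₘ R') :=
        Multiset.countP_pos.2 ⟨r0, hr0, le_rfl⟩
      obtain ⟨b, hb, hb'⟩ := Multiset.countP_pos.1 (h2.trans_le h1)
      exact hb'.trans (hbmax b hb)
    obtain ⟨Q, hQ, h1, h2⟩ := ih R' B' (by simpa using hR) (by simpa using hB) (by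
      intro θ
      by_cases hθ : θ ≤ r0.1 + r0.2
      · have := h θ
        rw [Multiset.countP_cons_of_pos (p := fun r : ℕ × ℕ => θ ≤ r.1 + r.2) _ hθ,
          Multiset.countP_cons_of_pos (p := fun b => θ ≤ b) _ (hθ.trans hle)] at this
        omega
      · have : Multiset.countP (fun r : ℕ × ℕ => θ ≤ r.1 + r.2) R' = 0 := by
          refine Multiset.countP_eq_zero.2 (fun r hr hr' => hθ ?_)
          exact hr'.trans (hrmax r (Multiset.mem_cons_of_mem hr))
        omega)
    refine ⟨(r0.1, b0, r0.2) ::ₘ Q, ?_, ?_, ?_⟩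
    · intro q hq
      rcases Multiset.mem_cons.1 hq with rfl | hq
      · exact hle
      · exact hQ q hq
    · simp [h1]
    · simp [h2]

/-! ### loads, supports, relabelling -/

/-- number of intervals `[t, t + z)` containing `x` -/
def load (R : Multiset (ℕ × ℕ)) (x : ℕ) : ℕ := R.countP (fun r => r.1 ≤ x ∧ x < r.1 + r.2)

/-- all intervals lie in `[lo, hi]` -/
def Supp (R : Multiset (ℕ × ℕ)) (lo hi : ℕ) : Prop := ∀ r ∈ R, lo ≤ r.1 ∧ r.1 + r.2 ≤ hi

/-- `R` redistributes the jobs of the `μ`-fold of `P` -/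
def Rel (μ : ℕ) (P R : Multiset (ℕ × ℕ)) : Prop :=
  R.map Prod.fst = μ • P.map Prod.fst ∧ R.map Prod.snd = μ • P.map Prod.snd

theorem load_add (R R' : Multiset (ℕ × ℕ)) (x : ℕ) : load (R + R') x = load R x + load R' x :=
  Multiset.countP_add _ _ _

theorem load_sum {ι : Type} (s : Finset ι) (R : ι → Multiset (ℕ × ℕ)) (x : ℕ) :
    load (∑ i ∈ s, R i) x = ∑ i ∈ s, load (R i) x := by
  classical
  induction s using Finset.induction_on with
  | empty => simp [load]
  | insert a s ha ih => rw [Finset.sum_insert ha, Finset.sum_insert ha, load_add, ih]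

theorem load_replicate (c : ℕ) (r : ℕ × ℕ) (x : ℕ) :
    load (Multiset.replicate c r) x = if r.1 ≤ x ∧ x < r.1 + r.2 then c else 0 := by
  unfold load
  induction c with
  | zero => simp
  | succ c ih =>
    rw [Multiset.replicate_succ]
    by_cases h : r.1 ≤ x ∧ x < r.1 + r.2
    · rw [Multiset.countP_cons_of_pos (p := fun r : ℕ × ℕ => r.1 ≤ x ∧ x < r.1 + r.2) _ h, ih,
        if_pos h, if_pos h]
    · rw [Multiset.countP_cons_of_neg (p := fun r : ℕ × ℕ => r.1 ≤ x ∧ x < r.1 + r.2) _ h, ih,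
        if_neg h, if_neg h]

theorem Supp.of_load {R : Multiset (ℕ × ℕ)} {lo hi x : ℕ} (h : Supp R lo hi)
    (hx : load R x ≠ 0) : lo ≤ x ∧ x < hi := by
  obtain ⟨r, hr, h1, h2⟩ := Multiset.countP_pos.1 (Nat.pos_of_ne_zero hx)
  obtain ⟨h3, h4⟩ := h r hr
  omega

theorem Supp.mono {R : Multiset (ℕ × ℕ)} {lo hi lo' hi' : ℕ} (h : Supp R lo hi) (h1 : lo' ≤ lo)
    (h2 : hi ≤ hi') : Supp R lo' hi' := fun r hr => ⟨h1.trans (h r hr).1, (h r hr).2.trans h2⟩

theorem Supp.add {R R' : Multiset (ℕ × ℕ)} {lo hi : ℕ} (h : Supp R lo hi) (h' : Supp R' lo hi) :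
    Supp (R + R') lo hi := by
  intro r hr
  rcases Multiset.mem_add.1 hr with hr | hr
  · exact h r hr
  · exact h' r hr

theorem Supp.sum {ι : Type} {s : Finset ι} {R : ι → Multiset (ℕ × ℕ)} {lo hi : ℕ}
    (h : ∀ i ∈ s, Supp (R i) lo hi) : Supp (∑ i ∈ s, R i) lo hi := by
  intro r hr
  obtain ⟨i, hi, hr⟩ := Multiset.mem_sum.1 hr
  exact h i hi r hr

theorem Rel.add {μ : ℕ} {P R P' R' : Multiset (ℕ × ℕ)} (h : Rel μ P R) (h' : Rel μ P' R') :
    Rel μ (P + P') (R + R') := by
  refine ⟨?_, ?_⟩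
  · rw [Multiset.map_add, Multiset.map_add, h.1, h'.1, nsmul_add]
  · rw [Multiset.map_add, Multiset.map_add, h.2, h'.2, nsmul_add]

theorem map_sum' {ι α β : Type} (s : Finset ι) (R : ι → Multiset α) (f : α → β) :
    (∑ i ∈ s, R i).map f = ∑ i ∈ s, (R i).map f := by
  classical
  induction s using Finset.induction_on with
  | empty => simp
  | insert a s ha ih => rw [Finset.sum_insert ha, Finset.sum_insert ha, Multiset.map_add, ih]

theorem Rel.sum {ι : Type} {μ : ℕ} {s : Finset ι} {P R : ι → Multiset (ℕ × ℕ)}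
    (h : ∀ i ∈ s, Rel μ (P i) (R i)) : Rel μ (∑ i ∈ s, P i) (∑ i ∈ s, R i) := by
  refine ⟨?_, ?_⟩
  · rw [map_sum', map_sum', Finset.smul_sum]
    exact Finset.sum_congr rfl (fun i hi => (h i hi).1)
  · rw [map_sum', map_sum', Finset.smul_sum]
    exact Finset.sum_congr rfl (fun i hi => (h i hi).2)

theorem coe_flatMap_range {α : Type} (N : ℕ) (f : ℕ → List α) :
    (((List.range N).flatMap f : List α) : Multiset α) = ∑ i ∈ range N, (f i : Multiset α) := by
  induction N with
  | zero => simp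
  | succ N ih =>
    rw [List.range_succ, List.flatMap_append, Finset.sum_range_succ, ← ih, ← Multiset.coe_add]
    simp

theorem coe_flatMap_filter {α : Type} (N : ℕ) (p : ℕ → Prop) [DecidablePred p] (f : ℕ → List α) :
    ((((List.range N).filter (fun i => decide (p i))).flatMap f : List α) : Multiset α) =
      ∑ i ∈ (range N).filter p, (f i : Multiset α) := by
  induction N with
  | zero => simp
  | succ N ih =>
    rw [List.range_succ, List.filter_append, List.flatMap_append, ← Multiset.coe_add, ih,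
      Finset.range_add_one, Finset.filter_insert]
    by_cases h : p N
    · rw [if_pos h, Finset.sum_insert (by simp)]
      simp [h, add_comm]
    · rw [if_neg h]
      simp [h]

theorem coe_map_range {α : Type} (N : ℕ) (f : ℕ → α) :
    (((List.range N).map f : List α) : Multiset α) = ∑ i ∈ range N, ({f i} : Multiset α) := by
  induction N with
  | zero => simp
  | succ N ih =>
    rw [List.range_succ, List.map_append, Finset.sum_range_succ, ← ih, ← Multiset.coe_add]
    simp

/-! ### anchors -/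

/-- anchors with `c κ` special and `μ - c κ` default jobs -/
def ancR (Λ d y w q μ : ℕ) (c : ℕ → ℕ) : Multiset (ℕ × ℕ) :=
  ∑ κ ∈ range (q + 1),
    (Multiset.replicate (c κ) (w + κ * Λ ^ (y + 1) + d * Λ ^ y, sig Λ d y) +
      Multiset.replicate (μ - c κ) (w + κ * Λ ^ (y + 1) + d * Λ ^ y, Λ ^ y))

theorem ancR_fst (Λ d y w q μ : ℕ) (c : ℕ → ℕ) (hc : ∀ κ, c κ ≤ μ) (sp : ℕ → Bool) :
    (ancR Λ d y w q μ c).map Prod.fst = μ • ((anc Λ d y w q sp : List (ℕ × ℕ)) :
      Multiset (ℕ × ℕ)).map Prod.fst := by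
  unfold ancR anc
  rw [coe_map_range, map_sum', map_sum', Finset.smul_sum]
  refine Finset.sum_congr rfl (fun κ _ => ?_)
  rw [Multiset.map_add, Multiset.map_replicate, Multiset.map_replicate, Multiset.map_singleton,
    ← Multiset.replicate_add, Nat.add_sub_cancel' (hc κ), Multiset.nsmul_singleton]

theorem sum_replicate {ι α : Type} (s : Finset ι) (c : ι → ℕ) (a : α) :
    ∑ i ∈ s, Multiset.replicate (c i) a = Multiset.replicate (∑ i ∈ s, c i) a := by
  classical
  induction s using Finset.induction_on with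
  | empty => simp
  | insert i s hi ih => rw [Finset.sum_insert hi, Finset.sum_insert hi, ih, Multiset.replicate_add]

theorem ancR_snd (Λ d y w q μ : ℕ) (c : ℕ → ℕ) :
    (ancR Λ d y w q μ c).map Prod.snd =
      Multiset.replicate (∑ κ ∈ range (q + 1), c κ) (sig Λ d y) +
        Multiset.replicate (∑ κ ∈ range (q + 1), (μ - c κ)) (Λ ^ y) := by
  unfold ancR
  rw [map_sum', ← sum_replicate, ← sum_replicate, ← Finset.sum_add_distrib]
  refine Finset.sum_congr rfl (fun κ _ => ?_)
  rw [Multiset.map_add, Multiset.map_replicate, Multiset.map_replicate]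

theorem anc_snd (Λ d y w q μ : ℕ) (sp : ℕ → Bool) :
    μ • ((anc Λ d y w q sp : List (ℕ × ℕ)) : Multiset (ℕ × ℕ)).map Prod.snd =
      (ancR Λ d y w q μ (fun κ => if sp κ then μ else 0)).map Prod.snd := by
  unfold ancR anc
  rw [coe_map_range, map_sum', map_sum', Finset.smul_sum]
  refine Finset.sum_congr rfl (fun κ _ => ?_)
  rw [Multiset.map_add, Multiset.map_replicate, Multiset.map_replicate, Multiset.map_singleton,
    Multiset.nsmul_singleton]
  by_cases h : sp κ = true <;> simp [h]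

/-- a family of windows of one level: only the total number of special jobs matters -/
theorem rel_anc {ι : Type} (s : Finset ι) (Λ d y q μ : ℕ) (w : ι → ℕ) (c : ι → ℕ → ℕ)
    (sp : ι → ℕ → Bool) (hc : ∀ i ∈ s, ∀ κ, c i κ ≤ μ)
    (htot : ∑ i ∈ s, ∑ κ ∈ range (q + 1), c i κ =
      ∑ i ∈ s, ∑ κ ∈ range (q + 1), (if sp i κ then μ else 0)) :
    Rel μ (∑ i ∈ s, ((anc Λ d y (w i) q (sp i) : List (ℕ × ℕ)) : Multiset (ℕ × ℕ)))
      (∑ i ∈ s, ancR Λ d y (w i) q μ (c i)) := by
  refine ⟨?_, ?_⟩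
  · rw [map_sum', map_sum', Finset.smul_sum]
    exact Finset.sum_congr rfl (fun i hi => ancR_fst _ _ _ _ _ _ _ (hc i hi) _)
  · rw [map_sum', map_sum', Finset.smul_sum]
    simp only [anc_snd, ancR_snd, Finset.sum_add_distrib, sum_replicate]
    rw [htot]
    congr 2
    have key : ∀ c' : ι → ℕ → ℕ, (∀ i ∈ s, ∀ κ, c' i κ ≤ μ) →
        ∑ i ∈ s, ∑ κ ∈ range (q + 1), (μ - c' i κ) + ∑ i ∈ s, ∑ κ ∈ range (q + 1), c' i κ =
          ∑ _i ∈ s, ∑ _κ ∈ range (q + 1), μ := by
      intro c' hc'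
      rw [← Finset.sum_add_distrib]
      refine Finset.sum_congr rfl (fun i hi => ?_)
      rw [← Finset.sum_add_distrib]
      exact Finset.sum_congr rfl (fun κ _ => Nat.sub_add_cancel (hc' i hi κ))
    have h1 := key c hc
    have h2 := key (fun i κ => if sp i κ then μ else 0) (fun i _ κ => by split_ifs <;> simp)
    omega

theorem idx_le {a b V z : ℕ} (h1 : a * V ≤ z) (h2 : z < (b + 1) * V) : a ≤ b := by
  have := Nat.lt_of_mul_lt_mul_right (h1.trans_lt h2)
  omega

theorem hV_of {Λ d : ℕ} (y : ℕ) (hd : 2 * d + 1 ≤ Λ) :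
    2 * (d * Λ ^ y) + Λ ^ y ≤ Λ ^ (y + 1) := by
  have : (2 * d + 1) * Λ ^ y ≤ Λ * Λ ^ y := Nat.mul_le_mul_right _ hd
  rw [pow_succ]
  nlinarith

theorem sig_eq (Λ d y : ℕ) : sig Λ d y = Λ ^ (y + 1) + d * Λ ^ y + Λ ^ y := by
  unfold sig
  ring

theorem ancR_supp (Λ d y w q μ : ℕ) (c : ℕ → ℕ) (hd : 2 * d + 1 ≤ Λ) (hq : c q = 0) :
    Supp (ancR Λ d y w q μ c) w (w + (q + 1) * Λ ^ (y + 1)) := by
  have hV := hV_of y hd
  refine Supp.sum (fun κ hκ => ?_)
  have hκ' : κ ≤ q := Nat.lt_succ_iff.1 (Finset.mem_range.1 hκ)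
  refine Supp.add ?_ ?_
  · intro r hr
    obtain ⟨h0, rfl⟩ := Multiset.mem_replicate.1 hr
    have hκq : κ + 1 ≤ q := by
      rcases hκ'.lt_or_eq with h | h
      · exact h
      · exact absurd (h ▸ hq) h0
    have := Nat.mul_le_mul_right (Λ ^ (y + 1)) hκq
    rw [add_mul, one_mul] at this
    simp only [sig_eq, add_mul, one_mul]
    omega
  · intro r hr
    obtain ⟨_, rfl⟩ := Multiset.mem_replicate.1 hr
    have := Nat.mul_le_mul_right (Λ ^ (y + 1)) hκ'
    simp only [add_mul, one_mul]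
    omega

theorem ancR_load (Λ d y w q μ : ℕ) (c : ℕ → ℕ) (x : ℕ) :
    load (ancR Λ d y w q μ c) x = ∑ κ ∈ range (q + 1),
      ((if w + κ * Λ ^ (y + 1) + d * Λ ^ y ≤ x ∧
          x < w + κ * Λ ^ (y + 1) + d * Λ ^ y + sig Λ d y then c κ else 0) +
        (if w + κ * Λ ^ (y + 1) + d * Λ ^ y ≤ x ∧
          x < w + κ * Λ ^ (y + 1) + d * Λ ^ y + Λ ^ y then μ - c κ else 0)) := by
  unfold ancR
  rw [load_sum]
  refine Finset.sum_congr rfl (fun κ _ => ?_)
  rw [load_add, load_replicate, load_replicate]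

theorem ancR_load_le (Λ d y w q μ M : ℕ) (c : ℕ → ℕ) (hd : 2 * d + 1 ≤ Λ) (hc : ∀ κ, c κ ≤ μ)
    (hM : ∀ κ, c κ ≤ M) (x : ℕ) : load (ancR Λ d y w q μ c) x ≤ μ + M := by
  have hV := hV_of y hd
  have hVpos : 0 < Λ ^ (y + 1) := pow_pos (by omega) _
  rw [ancR_load, sig_eq]
  generalize Λ ^ (y + 1) = V at *
  generalize Λ ^ y = U at *
  obtain ⟨κ', h1, h2⟩ : ∃ κ', κ' * V ≤ x - w ∧ x - w < (κ' + 1) * V := by
    refine ⟨(x - w) / V, Nat.div_mul_le_self _ _, ?_⟩
    rw [add_mul, one_mul]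
    exact Nat.lt_div_mul_add hVpos
  calc _ ≤ ∑ κ ∈ range (q + 1), ((if κ = κ' then μ else 0) + (if κ = κ' - 1 then M else 0)) := by
        refine Finset.sum_le_sum (fun κ _ => ?_)
        have hcκ := hc κ
        have hMκ := hM κ
        by_cases hA : w + κ * V + d * U ≤ x
        · have hle : κ ≤ κ' := idx_le (V := V) (z := x - w) (by omega) h2
          by_cases hκ : κ = κ'
          · rw [if_pos hκ]
            split_ifs <;> omega
          · have hB : ¬ (x < w + κ * V + d * U + U) := by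
              intro hB
              have : κ' ≤ κ := idx_le (V := V) (z := x - w) h1 (by
                rw [add_mul, one_mul]; omega)
              omega
            rw [if_neg (fun h : _ ∧ x < w + κ * V + d * U + U => hB h.2), if_neg hκ]
            by_cases hC : x < w + κ * V + d * U + (V + d * U + U)
            · have : κ' ≤ κ + 1 := idx_le (V := V) (z := x - w) h1 (by
                simp only [add_mul, one_mul]; omega)
              rw [if_pos ⟨hA, hC⟩, if_pos (by omega)]
              omega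
            · rw [if_neg (fun h : _ ∧ _ => hC h.2)]
              omega
        · rw [if_neg (fun h : _ ∧ _ => hA h.1), if_neg (fun h : _ ∧ _ => hA h.1)]
          omega
    _ ≤ μ + M := by
        rw [Finset.sum_add_distrib, Finset.sum_ite_eq', Finset.sum_ite_eq']
        split_ifs <;> omega

theorem ancR_load_sub (Λ d y w q μ : ℕ) (c : ℕ → ℕ) (hd : 2 * d + 1 ≤ Λ) (x κ0 : ℕ)
    (h1 : w + (κ0 + 1) * Λ ^ (y + 1) ≤ x) (h2 : x < w + (κ0 + 1) * Λ ^ (y + 1) + d * Λ ^ y) :
    load (ancR Λ d y w q μ c) x ≤ c κ0 := by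
  have hV := hV_of y hd
  rw [ancR_load, sig_eq]
  generalize Λ ^ (y + 1) = V at *
  generalize Λ ^ y = U at *
  calc _ ≤ ∑ κ ∈ range (q + 1), (if κ = κ0 then c κ0 else 0) := by
        refine Finset.sum_le_sum (fun κ _ => ?_)
        by_cases hA : w + κ * V + d * U ≤ x
        · have hle : κ ≤ κ0 := idx_le (V := V) (z := κ * V) le_rfl (by omega)
          have hB : ¬ (x < w + κ * V + d * U + U) := by
            intro hB
            have := Nat.mul_le_mul_right V hle
            rw [add_mul, one_mul] at h1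
            omega
          rw [if_neg (fun h : _ ∧ x < w + κ * V + d * U + U => hB h.2)]
          by_cases hC : x < w + κ * V + d * U + (V + d * U + U)
          · have : κ0 + 1 ≤ κ + 1 := idx_le (V := V) (z := (κ0 + 1) * V) le_rfl (by
              simp only [add_mul, one_mul] at h1 ⊢; omega)
            have hκ : κ = κ0 := by omega
            rw [if_pos ⟨hA, hC⟩, if_pos hκ, hκ]
            omega
          · rw [if_neg (fun h : _ ∧ _ => hC h.2)]
            omega
        · rw [if_neg (fun h : _ ∧ _ => hA h.1), if_neg (fun h : _ ∧ _ => hA h.1)]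
          omega
    _ ≤ c κ0 := by
        rw [Finset.sum_ite_eq']
        split_ifs <;> omega

/-! ### blocks -/

/-- the `μ`-fold of `P` can be scheduled inside `[lo, hi]` with load at most `B` -/
def Blk (μ : ℕ) (P : List (ℕ × ℕ)) (lo hi B : ℕ) : Prop :=
  ∃ R, Rel μ (P : Multiset (ℕ × ℕ)) R ∧ Supp R lo hi ∧ ∀ x, load R x ≤ B

/-- all sub-blocks are schedulable -/
def SubOK (μ Λ : ℕ) (sub : ℕ → ℕ → List (ℕ × ℕ)) (S B : ℕ) : Prop :=
  ∀ lo b, Blk μ (sub lo b) b (b + Λ ^ (lo + S)) B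

theorem idx_eq {a b V w x U : ℕ} (hU : U ≤ V) (h1 : w + a * V ≤ x) (h2 : x < w + a * V + U)
    (h3 : w + b * V ≤ x) (h4 : x < w + b * V + U) : a = b := by
  have e1 : a ≤ b := idx_le (V := V) (z := a * V) le_rfl (by rw [add_mul, one_mul]; omega)
  have e2 : b ≤ a := idx_le (V := V) (z := b * V) le_rfl (by rw [add_mul, one_mul]; omega)
  omega

theorem headD_mem {e : List ℕ} (he : e ≠ []) : e.headD 0 ∈ e := by
  cases e with
  | nil => exact absurd rfl he
  | cons a l => simp

theorem grpE_ok (μ n Λ d : ℕ) (sub : ℕ → ℕ → List (ℕ × ℕ)) (S q lo w0 st B : ℕ) (e : List ℕ)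
    (yv : ℕ → ℕ) (hsub : SubOK μ Λ sub S B) (hB : μ ≤ B) (he : e ≠ []) (hlt : ∀ v ∈ e, v < n)
    (hy : ∑ v ∈ (range n).filter (fun v => v ∈ e), yv v = μ) (hq : q + 1 ≤ Λ)
    (hd : 2 * d + 1 ≤ Λ) (hd1 : 1 ≤ d) (hst : Λ ^ (lo + n * q * S + 2) ≤ st) :
    ∃ R, Rel μ ((grpE n Λ d sub S q lo w0 st e : List (ℕ × ℕ)) : Multiset (ℕ × ℕ)) R ∧
      (∀ r ∈ R, ∃ v < n, w0 + v * st ≤ r.1 ∧
        r.1 + r.2 ≤ w0 + v * st + Λ ^ (lo + n * q * S + 2)) ∧
      ∀ x, load R x = 0 ∨ ∃ v ∈ e, w0 + v * st ≤ x ∧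
        x < w0 + v * st + Λ ^ (lo + n * q * S + 2) ∧ load R x ≤ B + yv v := by
  classical
  choose Rs hRs using hsub
  set y := lo + n * q * S with hydef
  have hΛ : 1 ≤ Λ := by omega
  set Vs := (range n).filter (fun v => v ∈ e) with hVs
  set Is := (range (n * q)).filter (fun i => i / q ∈ e) with hIs
  set c : ℕ → ℕ → ℕ := fun v κ => if κ < q then yv v else 0 with hc
  set bs : ℕ → ℕ := fun i => w0 + i / q * st + (i % q + 1) * Λ ^ (y + 1) with hbs
  have hyle : ∀ v ∈ Vs, yv v ≤ μ := fun v hv =>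
    hy ▸ Finset.single_le_sum (f := yv) (fun _ _ => Nat.zero_le _) hv
  have hcy : ∀ v κ, c v κ ≤ yv v := by
    intro v κ
    simp only [hc]
    split_ifs <;> omega
  have hcμ : ∀ v ∈ Vs, ∀ κ, c v κ ≤ μ := fun v hv κ => (hcy v κ).trans (hyle v hv)
  have hW : (q + 1) * Λ ^ (y + 1) ≤ Λ ^ (y + 2) := by
    rw [pow_succ Λ (y + 1), mul_comm (Λ ^ (y + 1))]
    exact Nat.mul_le_mul_right _ hq
  have hUV : Λ ^ y ≤ Λ ^ (y + 1) := Nat.pow_le_pow_right hΛ (by omega)
  have hUd : Λ ^ y ≤ d * Λ ^ y := Nat.le_mul_of_pos_left _ hd1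
  -- supports
  have hsA : ∀ v, Supp (ancR Λ d y (w0 + v * st) q μ (c v)) (w0 + v * st)
      (w0 + v * st + Λ ^ (y + 2)) := fun v =>
    (ancR_supp Λ d y (w0 + v * st) q μ (c v) hd (by simp [hc])).mono le_rfl (by omega)
  have hsS : ∀ i ∈ Is, Supp (Rs (lo + i * S) (bs i)) (bs i) (bs i + Λ ^ y) := by
    intro i hi
    have hi' : i + 1 ≤ n * q := Finset.mem_range.1 (Finset.mem_filter.1 hi).1
    refine (hRs (lo + i * S) (bs i)).2.1.mono le_rfl (Nat.add_le_add_left ?_ _)
    refine Nat.pow_le_pow_right hΛ ?_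
    have := Nat.mul_le_mul_right S hi'
    rw [add_mul, one_mul] at this
    omega
  have hbs1 : ∀ i ∈ Is, i / q ∈ Vs ∧ i % q < q ∧ w0 + i / q * st ≤ bs i ∧
      bs i + Λ ^ y ≤ w0 + i / q * st + Λ ^ (y + 2) := by
    intro i hi
    obtain ⟨hi1, hi2⟩ := Finset.mem_filter.1 hi
    have hi' : i < n * q := Finset.mem_range.1 hi1
    have hq0 : 0 < q := Nat.pos_of_ne_zero (by rintro rfl; simp at hi')
    have hm : i % q < q := Nat.mod_lt _ hq0
    refine ⟨Finset.mem_filter.2 ⟨Finset.mem_range.2 (hlt _ hi2), hi2⟩, hm, ?_, ?_⟩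
    · simp only [hbs]; omega
    · have := Nat.mul_le_mul_right (Λ ^ (y + 1)) (show i % q + 1 ≤ q from hm)
      simp only [hbs]
      rw [add_mul q, one_mul] at hW
      omega
  refine ⟨∑ v ∈ Vs, ancR Λ d y (w0 + v * st) q μ (c v) + ∑ i ∈ Is, Rs (lo + i * S) (bs i),
    ?_, ?_, ?_⟩
  · unfold grpE
    rw [← Multiset.coe_add, coe_flatMap_filter, coe_flatMap_filter]
    refine Rel.add ?_ (Rel.sum (fun i _ => (hRs _ _).1))
    refine rel_anc Vs Λ d y q μ (fun v => w0 + v * st) c
      (fun v κ => decide (κ < q ∧ v = e.headD 0)) hcμ ?_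
    have e1 : ∀ v, ∑ κ ∈ range (q + 1), c v κ = q * yv v := by
      intro v
      rw [Finset.sum_range_succ, Finset.sum_congr rfl (g := fun _ => yv v)
        (fun κ hκ => by simp [hc, Finset.mem_range.1 hκ])]
      simp [hc]
    have e2 : ∀ v, ∑ κ ∈ range (q + 1),
        (if decide (κ < q ∧ v = e.headD 0) = true then μ else 0) =
        if v = e.headD 0 then q * μ else 0 := by
      intro v
      rw [Finset.sum_range_succ, Finset.sum_congr rfl (g := fun _ => if v = e.headD 0 then μ else 0)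
        (fun κ hκ => by simp only [Finset.mem_range.1 hκ, true_and, decide_eq_true_eq])]
      split_ifs <;> simp_all
    simp only [e1, e2]
    rw [← Finset.mul_sum, hy, Finset.sum_ite_eq', if_pos]
    exact Finset.mem_filter.2 ⟨Finset.mem_range.2 (hlt _ (headD_mem he)), headD_mem he⟩
  · intro r hr
    rcases Multiset.mem_add.1 hr with hr | hr
    · obtain ⟨v, hv, hr⟩ := Multiset.mem_sum.1 hr
      exact ⟨v, Finset.mem_range.1 (Finset.mem_filter.1 hv).1, hsA v r hr⟩
    · obtain ⟨i, hi, hr⟩ := Multiset.mem_sum.1 hr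
      obtain ⟨h1, _, h3, h4⟩ := hbs1 i hi
      obtain ⟨h5, h6⟩ := hsS i hi r hr
      exact ⟨i / q, Finset.mem_range.1 (Finset.mem_filter.1 h1).1, by omega, by omega⟩
  · intro x
    rw [load_add, load_sum, load_sum]
    by_cases hx : ∃ v ∈ Vs, w0 + v * st ≤ x ∧ x < w0 + v * st + Λ ^ (y + 2)
    · obtain ⟨v0, hv0, hx1, hx2⟩ := hx
      refine Or.inr ⟨v0, (Finset.mem_filter.1 hv0).2, hx1, hx2, ?_⟩
      have eA : ∑ v ∈ Vs, load (ancR Λ d y (w0 + v * st) q μ (c v)) x =
          load (ancR Λ d y (w0 + v0 * st) q μ (c v0)) x := by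
        refine Finset.sum_eq_single_of_mem v0 hv0 (fun v _ hne => ?_)
        by_contra h0
        obtain ⟨h1, h2⟩ := (hsA v).of_load h0
        exact hne (idx_eq hst h1 h2 hx1 hx2)
      rw [eA]
      by_cases h2 : ∃ i ∈ Is, load (Rs (lo + i * S) (bs i)) x ≠ 0
      · obtain ⟨i0, hi0, hl0⟩ := h2
        have key : ∀ i ∈ Is, load (Rs (lo + i * S) (bs i)) x ≠ 0 → i / q = v0 ∧
            w0 + v0 * st + (i % q + 1) * Λ ^ (y + 1) ≤ x ∧
            x < w0 + v0 * st + (i % q + 1) * Λ ^ (y + 1) + Λ ^ y := by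
          intro i hi hl
          obtain ⟨h1, h2⟩ := (hsS i hi).of_load hl
          obtain ⟨_, _, h3, h4⟩ := hbs1 i hi
          have hv : i / q = v0 := idx_eq hst (h3.trans h1) (h2.trans_le h4) hx1 hx2
          simp only [hbs, hv] at h1 h2
          exact ⟨hv, h1, h2⟩
        obtain ⟨k1, k2, k3⟩ := key i0 hi0 hl0
        have eS : ∑ i ∈ Is, load (Rs (lo + i * S) (bs i)) x =
            load (Rs (lo + i0 * S) (bs i0)) x := by
          refine Finset.sum_eq_single_of_mem i0 hi0 (fun i hi hne => ?_)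
          by_contra h0
          obtain ⟨l1, l2, l3⟩ := key i hi h0
          have := idx_eq hUV l2 l3 k2 k3
          apply hne
          rw [← Nat.div_add_mod i q, ← Nat.div_add_mod i0 q, l1, k1]
          omega
        have hA := ancR_load_sub Λ d y (w0 + v0 * st) q μ (c v0) hd x (i0 % q) k2 (by omega)
        have := hcy v0 (i0 % q)
        have hS := (hRs (lo + i0 * S) (bs i0)).2.2 x
        omega
      · push Not at h2
        rw [Finset.sum_eq_zero h2]
        have := ancR_load_le Λ d y (w0 + v0 * st) q μ (yv v0) (c v0) hd (hcμ v0 hv0) (hcy v0) x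
        omega
    · left
      have z1 : ∑ i ∈ Is, load (Rs (lo + i * S) (bs i)) x = 0 := by
        refine Finset.sum_eq_zero (fun i hi => ?_)
        by_contra h0
        obtain ⟨h1, h2⟩ := (hsS i hi).of_load h0
        obtain ⟨h5, _, h3, h4⟩ := hbs1 i hi
        exact hx ⟨i / q, h5, h3.trans h1, h2.trans_le h4⟩
      have z2 : ∑ v ∈ Vs, load (ancR Λ d y (w0 + v * st) q μ (c v)) x = 0 := by
        refine Finset.sum_eq_zero (fun v hv => ?_)
        by_contra h0
        exact hx ⟨v, hv, (hsA v).of_load h0⟩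
      rw [z1, z2]

theorem sum_range_mod (r n : ℕ) (f : ℕ → ℕ) :
    ∑ κ ∈ range (r * n), f (κ % n) = r * ∑ v ∈ range n, f v := by
  induction r with
  | zero => simp
  | succ r ih =>
    rw [add_mul, one_mul, Finset.sum_range_add, ih, add_mul, one_mul]
    congr 1
    refine Finset.sum_congr rfl (fun v hv => ?_)
    rw [add_comm, Nat.add_mul_mod_self_right, Nat.mod_eq_of_lt (Finset.mem_range.1 hv)]

theorem stage_ok (μ n : ℕ) (E : List (List ℕ)) (k Λ : ℕ) (sub : ℕ → ℕ → List (ℕ × ℕ))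
    (S r q lo b B : ℕ) (xx : ℕ → ℕ) (yy : ℕ → ℕ → ℕ) (hwf : WF n E k) (hfr : Frac n E k μ xx yy)
    (hsub : SubOK μ Λ sub S B) (hB : μ ≤ B) (hq : q + 1 ≤ Λ) (hr : r * n + 1 ≤ Λ)
    (hd : 2 * E.length + 1 ≤ Λ) :
    Blk μ (stage n E k Λ sub S r q lo b) b
      (b + Λ ^ (lo + r * E.length * (n * q * S + 2) + 2)) (B + μ) := by
  classical
  have hn := hwf.npos
  have hm : 1 ≤ E.length := by
    obtain ⟨e, he, _⟩ := hwf.cov 0 hn
    exact List.length_pos_of_mem he
  set m := E.length with hmdef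
  set Y := lo + r * m * (n * q * S + 2) with hY
  have hΛ : 1 ≤ Λ := by omega
  have hgetD : ∀ i, E.getD (i % m) [] ∈ E := by
    intro i
    have : i % m < E.length := Nat.mod_lt _ hm
    rw [List.getD_eq_getElem _ _ this]
    exact List.getElem_mem this
  have hUV : Λ ^ Y ≤ Λ ^ (Y + 1) := Nat.pow_le_pow_right hΛ (by omega)
  have hV := hV_of Y hd
  have hlev : ∀ i < r * m, Λ ^ (lo + i * (n * q * S + 2) + n * q * S + 2) ≤ Λ ^ Y := by
    intro i hi
    refine Nat.pow_le_pow_right hΛ ?_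
    have := Nat.mul_le_mul_right (n * q * S + 2) (show i + 1 ≤ r * m from hi)
    rw [add_mul, one_mul] at this
    omega
  set w0 : ℕ → ℕ := fun i => b + (i / m * n + 1) * Λ ^ (Y + 1) + i % m * Λ ^ Y with hw0
  have hE : ∀ i, i < r * m → ∃ R, Rel μ ((grpE n Λ m sub S q (lo + i * (n * q * S + 2)) (w0 i)
      (Λ ^ (Y + 1)) (E.getD (i % m) []) : List (ℕ × ℕ)) : Multiset (ℕ × ℕ)) R ∧
      Supp R b (b + Λ ^ (Y + 2)) ∧
      ∀ x, load R x = 0 ∨ ∃ v < n, b + (i / m * n + v + 1) * Λ ^ (Y + 1) + i % m * Λ ^ Y ≤ x ∧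
        x < b + (i / m * n + v + 1) * Λ ^ (Y + 1) + i % m * Λ ^ Y + Λ ^ Y ∧
        load R x + xx v ≤ B + μ := by
    intro i hi
    have him : i % m < m := Nat.mod_lt _ hm
    obtain ⟨R, h1, h2, h3⟩ := grpE_ok μ n Λ m sub S q (lo + i * (n * q * S + 2)) (w0 i)
      (Λ ^ (Y + 1)) B (E.getD (i % m) []) (yy (i % m)) hsub hB (hwf.ne _ (hgetD i))
      (hwf.lt _ (hgetD i)) (hfr.sumy _ him) hq hd hm ((hlev i hi).trans hUV)
    have hl := hlev i hi
    refine ⟨R, h1, ?_, ?_⟩
    · intro ρ hρ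
      obtain ⟨v, hv, g1, g2⟩ := h2 ρ hρ
      have hc : i / m + 1 ≤ r := Nat.div_lt_of_lt_mul (by rwa [mul_comm] at hi)
      have a1 : i / m * n + v + 1 ≤ r * n := by
        have := Nat.mul_le_mul_right n hc
        rw [add_mul, one_mul] at this
        omega
      have a2 := Nat.mul_le_mul_right (Λ ^ (Y + 1)) a1
      have a3 := Nat.mul_le_mul_right (Λ ^ Y) (show i % m + 1 ≤ m from him)
      have a4 : (r * n + 1) * Λ ^ (Y + 1) ≤ Λ ^ (Y + 2) := by
        rw [pow_succ Λ (Y + 1), mul_comm (Λ ^ (Y + 1))]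
        exact Nat.mul_le_mul_right _ hr
      simp only [hw0, add_mul, one_mul] at g1 g2 a2 a3 a4
      omega
    · intro x
      rcases h3 x with h | ⟨v, hv, g1, g2, g3⟩
      · exact Or.inl h
      · refine Or.inr ⟨v, hwf.lt _ (hgetD i) v hv, ?_, ?_, ?_⟩
        · simp only [hw0, add_mul, one_mul] at g1 ⊢
          omega
        · simp only [hw0, add_mul, one_mul] at g2 hl ⊢
          omega
        · have := hfr.le _ him v hv
          omega
  choose! RE hRE using hE
  set c : ℕ → ℕ := fun κ => if κ < r * n then xx (κ % n) else 0 with hc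
  have hcμ : ∀ κ, c κ ≤ μ := by
    intro κ
    simp only [hc]
    split_ifs
    · exact hfr.xle _ (Nat.mod_lt _ hn)
    · exact Nat.zero_le _
  refine ⟨ancR Λ m Y b (r * n) μ c + ∑ i ∈ range (r * m), RE i, ?_, ?_, ?_⟩
  · unfold stage
    rw [← Multiset.coe_add, coe_flatMap_range]
    refine Rel.add ?_ (Rel.sum (fun i hi => (hRE i (Finset.mem_range.1 hi)).1))
    have := rel_anc (ι := Unit) Finset.univ Λ m Y (r * n) μ (fun _ => b) (fun _ => c)
      (fun _ κ => decide (κ < r * n ∧ κ % n < k)) (fun _ _ => hcμ) (by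
        simp only [Finset.univ_unique, Finset.sum_singleton]
        rw [Finset.sum_range_succ, Finset.sum_range_succ,
          Finset.sum_congr rfl (g := fun κ => xx (κ % n))
            (fun κ hκ => by simp [hc, Finset.mem_range.1 hκ]),
          Finset.sum_congr rfl (s₁ := range (r * n))
            (f := fun κ => if decide (κ < r * n ∧ κ % n < k) = true then μ else 0)
            (g := fun κ => if κ % n < k then μ else 0)
            (fun κ hκ => by simp only [Finset.mem_range.1 hκ, true_and, decide_eq_true_eq]),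
          sum_range_mod r n xx, sum_range_mod r n (fun v => if v < k then μ else 0), hfr.sumx]
        have e : ∑ v ∈ range n, (if v < k then μ else 0) = μ * k := by
          rw [← Finset.sum_filter, Finset.sum_const, smul_eq_mul, mul_comm]
          congr 1
          have : (range n).filter (fun v => v < k) = range k := by
            ext v
            simp only [Finset.mem_filter, Finset.mem_range]
            have := hwf.kle
            omega
          rw [this, Finset.card_range]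
        rw [e]
        simp [hc])
    simpa only [Finset.univ_unique, Finset.sum_singleton] using this
  · refine Supp.add ?_ (Supp.sum (fun i hi => (hRE i (Finset.mem_range.1 hi)).2.1))
    refine (ancR_supp Λ m Y b (r * n) μ c hd (by simp [hc])).mono le_rfl ?_
    have a4 : (r * n + 1) * Λ ^ (Y + 1) ≤ Λ ^ (Y + 2) := by
      rw [pow_succ Λ (Y + 1), mul_comm (Λ ^ (Y + 1))]
      exact Nat.mul_le_mul_right _ hr
    omega
  · intro x
    rw [load_add, load_sum]
    by_cases h2 : ∃ i ∈ range (r * m), load (RE i) x ≠ 0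
    · obtain ⟨i0, hi0, hl0⟩ := h2
      have hi0' := Finset.mem_range.1 hi0
      obtain ⟨v0, hv0, k1, k2, k3⟩ := ((hRE i0 hi0').2.2 x).resolve_left hl0
      have hmU : ∀ i, i % m * Λ ^ Y + Λ ^ Y ≤ m * Λ ^ Y := by
        intro i
        have a3 := Nat.mul_le_mul_right (Λ ^ Y) (show i % m + 1 ≤ m from Nat.mod_lt _ hm)
        rwa [add_mul, one_mul] at a3
      have eS : ∑ i ∈ range (r * m), load (RE i) x = load (RE i0) x := by
        refine Finset.sum_eq_single_of_mem i0 hi0 (fun i hi hne => ?_)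
        by_contra h0
        obtain ⟨v, hv, l1, l2, _⟩ := ((hRE i (Finset.mem_range.1 hi)).2.2 x).resolve_left h0
        have m1 := hmU i
        have m2 := hmU i0
        have e1 : i / m * n + v + 1 = i0 / m * n + v0 + 1 :=
          idx_eq (w := b) (x := x) (V := Λ ^ (Y + 1)) (U := m * Λ ^ Y) (by omega) (by omega)
            (by omega) (by omega) (by omega)
        have e2 : i / m = i0 / m :=
          idx_eq (w := 0) (x := i / m * n + v) (V := n) (U := n) le_rfl (by omega) (by omega)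
            (by omega) (by omega)
        rw [e1] at l1 l2
        have e3 : i % m = i0 % m := idx_eq le_rfl l1 l2 k1 k2
        apply hne
        rw [← Nat.div_add_mod i m, ← Nat.div_add_mod i0 m, e2, e3]
      have m2 := hmU i0
      have hA := ancR_load_sub Λ m Y b (r * n) μ c hd x (i0 / m * n + v0) (by omega) (by omega)
      have hcv : c (i0 / m * n + v0) ≤ xx v0 := by
        simp only [hc]
        split_ifs
        · rw [add_comm, Nat.add_mul_mod_self_right, Nat.mod_eq_of_lt hv0]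
        · exact Nat.zero_le _
      omega
    · push Not at h2
      rw [Finset.sum_eq_zero h2]
      have := ancR_load_le Λ m Y b (r * n) μ μ c hd hcμ hcμ x
      omega

theorem le_ph2 (n m G D φ : ℕ) : φ ≤ ph2 n m G D φ := by
  unfold ph2 ph1
  omega

theorem le_ph2_iter (n m G D j : ℕ) : ∀ φ, φ ≤ (ph2 n m G D)^[j] φ := by
  induction j with
  | zero => intro φ; exact le_rfl
  | succ j ih => intro φ; exact (le_ph2 n m G D φ).trans (ih _)

theorem blkX_ok (μ n : ℕ) (E : List (List ℕ)) (k G D Λ : ℕ) (xx : ℕ → ℕ) (yy : ℕ → ℕ → ℕ)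
    (hwf : WF n E k) (hfr : Frac n E k μ xx yy) (hd : 2 * E.length + 1 ≤ Λ) (j : ℕ) :
    ∀ φ, (ph2 n E.length G D)^[j] φ < Λ →
      SubOK μ Λ (blkX n E k G D Λ j φ) (szX n E.length G D j φ) (μ * (j + 1)) := by
  have hn := hwf.npos
  have hm : 1 ≤ E.length := by
    obtain ⟨e, he, _⟩ := hwf.cov 0 hn
    exact List.length_pos_of_mem he
  induction j with
  | zero =>
    intro φ _ lo b
    change Blk μ [] _ _ _
    exact ⟨0, ⟨by simp, by simp⟩, by simp [Supp], by simp [load]⟩
  | succ j ih =>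
    intro φ hφ lo b
    rw [Function.iterate_succ_apply] at hφ
    have h2 : ph2 n E.length G D φ < Λ := (le_ph2_iter _ _ _ _ _ _).trans_lt hφ
    have hq : qq n E.length G D φ + 1 ≤ Λ := by
      have : qq n E.length G D φ ≤ n * qq n E.length G D φ := Nat.le_mul_of_pos_left _ hn
      unfold ph2 at h2
      omega
    have hr : rr G D φ * n + 1 ≤ Λ := by
      have : rr G D φ * n ≤ rr G D φ * E.length * n :=
        Nat.mul_le_mul_right _ (Nat.le_mul_of_pos_right _ hm)
      unfold ph2 ph1 at h2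
      omega
    have := stage_ok μ n E k Λ _ _ (rr G D φ) (qq n E.length G D φ) lo b _ xx yy hwf hfr
      (ih _ hφ) (Nat.le_mul_of_pos_right _ (by omega)) hq hr hd
    rw [show μ * (j + 1 + 1) = μ * (j + 1) + μ by ring]
    exact this

end Yes15

open Yes15 in
/-- the YES leaf -/
theorem yes_15 : YesStmt := by
  intro D n E k μ x y hwf hfr
  have hd : 2 * E.length + 1 ≤ lam D n E := by unfold lam; omega
  have hφ : (ph2 n E.length (2 * D + 3) D)^[D + 2] 0 < lam D n E := by unfold lam; omega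
  obtain ⟨R, ⟨hR1, hR2⟩, hsupp, hload⟩ := blkX_ok μ n E k (2 * D + 3) D (lam D n E) x y hwf hfr hd
    (D + 2) 0 hφ 0 (lam D n E ^ top D n E)
  rw [zero_add] at hsupp
  change Supp R (lam D n E ^ top D n E) (lam D n E ^ top D n E + lam D n E ^ top D n E) at hsupp
  change R.map Prod.fst = μ • ((pts D n E k : List (ℕ × ℕ)) : Multiset (ℕ × ℕ)).map Prod.fst at hR1
  change R.map Prod.snd = μ • ((pts D n E k : List (ℕ × ℕ)) : Multiset (ℕ × ℕ)).map Prod.snd at hR2
  set T := lam D n E ^ top D n E with hT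
  have eA : μ • (instA D n E k : Multiset ℕ) =
      Multiset.replicate (μ * (D + 3)) 0 + R.map Prod.fst := by
    rw [hR1, instA, ← Multiset.coe_add, nsmul_add, Multiset.coe_replicate,
      Multiset.nsmul_replicate, Multiset.map_coe]
  have eB : μ • (instB D n E k : Multiset ℕ) =
      Multiset.replicate (μ * (D + 3)) (2 * T) + R.map Prod.fst := by
    rw [hR1, instB, ← Multiset.coe_add, nsmul_add, Multiset.coe_replicate,
      Multiset.nsmul_replicate, Multiset.map_coe]
  have eZ : μ • (instZ D n E k : Multiset ℕ) =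
      Multiset.replicate (μ * (D + 3)) T + R.map Prod.snd := by
    rw [hR2, instZ, ← Multiset.coe_add, nsmul_add, Multiset.coe_replicate,
      Multiset.nsmul_replicate, Multiset.map_coe]
  have hrep : ∀ {α : Type} (p : α → Prop) [DecidablePred p] (c : ℕ) (a : α),
      (Multiset.replicate c a).countP p = if p a then c else 0 := by
    intro α p _ c a
    induction c with
    | zero => simp
    | succ c ih =>
      rw [Multiset.replicate_succ]
      by_cases h : p a
      · rw [Multiset.countP_cons_of_pos _ h, ih, if_pos h, if_pos h]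
      · rw [Multiset.countP_cons_of_neg _ h, ih, if_neg h, if_neg h]
  obtain ⟨Q, hQ, h1, h2⟩ := hall (μ * (D + 3) + Multiset.card R)
    (Multiset.replicate (μ * (D + 3)) (0, T) + R)
    (Multiset.replicate (μ * (D + 3)) (2 * T) + R.map Prod.fst) (by simp) (by simp) (by
      intro θ
      rw [Multiset.countP_add, Multiset.countP_add, hrep, hrep, Multiset.countP_map,
        ← Multiset.countP_eq_card_filter]
      by_cases hθ : θ ≤ T
      · have e1 : R.countP (fun r => θ ≤ r.1) = Multiset.card R :=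
          Multiset.countP_eq_card.2 (fun r hr => hθ.trans (hsupp r hr).1)
        have e2 := Multiset.countP_le_card (fun r : ℕ × ℕ => θ ≤ r.1 + r.2) R
        rw [e1, if_pos (show θ ≤ 2 * T by omega)]
        split_ifs <;> omega
      · rw [if_neg (show ¬ θ ≤ ((0, T) : ℕ × ℕ).1 + ((0, T) : ℕ × ℕ).2 by simpa using hθ)]
        by_cases hθ2 : θ ≤ 2 * T
        · rw [if_pos hθ2]
          have hl := hload (θ - 1)
          have e3 : ∀ R' : Multiset (ℕ × ℕ), R'.countP (fun r => θ ≤ r.1 + r.2) ≤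
              load R' (θ - 1) + R'.countP (fun r => θ ≤ r.1) := by
            intro R'
            unfold load
            induction R' using Multiset.induction_on with
            | empty => simp
            | cons a s ih =>
              rw [Multiset.countP_cons, Multiset.countP_cons, Multiset.countP_cons]
              split_ifs <;> omega
          have := e3 R
          have e4 : μ * (D + 2 + 1) = μ * (D + 3) := rfl
          omega
        · have : R.countP (fun r => θ ≤ r.1 + r.2) = 0 :=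
            Multiset.countP_eq_zero.2 (fun r hr hr' => by
              have := (hsupp r hr).2
              omega)
          omega)
  refine ⟨Q, hQ, ?_, ?_, ?_⟩
  · rw [eA]
    have := congrArg (Multiset.map Prod.fst) h1
    rw [Multiset.map_map, Multiset.map_add, Multiset.map_replicate] at this
    exact this
  · rw [eB, h2]
  · rw [eZ]
    have := congrArg (Multiset.map Prod.snd) h1
    rw [Multiset.map_map, Multiset.map_add, Multiset.map_replicate] at this
    exact this

end Crest.Agent.T318.C25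
end

-- ▼ part T318/Flat_17
section

/-!
# A flat small-step machine for the programs of the polynomial-time library

Every program `c : Cmd` is compiled to a table of instructions; one instruction reads the top of one
stack, keeps / pops / pushes on that stack and jumps to a label depending on the symbol read.
-/

set_option autoImplicit false

namespace Crest.Agent.T318.CL

open Crest.Agent.Lib.PT Crest.Agent.Lib.PT.Cmd

/-- what an instruction does to its stack -/
inductive Act : Type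
  | keep : Act
  | pop : Act
  | push (b : Bool) : Act

/-- the effect of an action -/
def Act.app : Act → List Bool → List Bool
  | .keep, l => l
  | .pop, l => l.tail
  | .push b, l => b :: l

/-- an instruction -/
structure Ins (Λ : Type) where
  /-- the stack -/
  k : ℕ
  /-- the action -/
  act : Act
  /-- the next label, depending on the top symbol -/
  nx : Option Bool → Λ

/-- one step -/
def fstep {Λ : Type} (M : Λ → Ins Λ) (p : Λ × Store) : Λ × Store :=
  ((M p.1).nx (p.2 (M p.1).k).head?,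
    Function.update p.2 (M p.1).k ((M p.1).act.app (p.2 (M p.1).k)))

/-- the instruction table of a program -/
def flat {Λ : Type} : (c : Cmd) → (Lab c → Λ) → Λ → Lab c → Ins Λ
  | .skip, _, exit, _ => ⟨0, .keep, fun _ => exit⟩
  | .push k b, _, exit, _ => ⟨k, .push b, fun _ => exit⟩
  | .pop k, _, exit, _ => ⟨k, .pop, fun _ => exit⟩
  | .seq c d, emb, exit, l =>
      Sum.elim (fun a => flat c (fun x => emb (Sum.inl x)) (emb (Sum.inr (entry d))) a)
        (fun a => flat d (fun x => emb (Sum.inr x)) exit a) l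
  | .ite k e c d, emb, exit, l =>
      Sum.elim
        (fun _ => ⟨k, .keep, fun v =>
          match v with
          | none => emb (Sum.inr (Sum.inl (entry e)))
          | some true => emb (Sum.inr (Sum.inr (Sum.inl (entry c))))
          | some false => emb (Sum.inr (Sum.inr (Sum.inr (entry d))))⟩)
        (Sum.elim (fun a => flat e (fun x => emb (Sum.inr (Sum.inl x))) exit a)
          (Sum.elim (fun a => flat c (fun x => emb (Sum.inr (Sum.inr (Sum.inl x)))) exit a)
            (fun a => flat d (fun x => emb (Sum.inr (Sum.inr (Sum.inr x)))) exit a))) l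
  | .loop k c, emb, exit, l =>
      Sum.elim
        (fun _ => ⟨k, .keep, fun v =>
          match v with
          | none => exit
          | some _ => emb (Sum.inr (entry c))⟩)
        (fun a => flat c (fun x => emb (Sum.inr x)) (emb (Sum.inl ())) a) l

theorem iter_add {Λ : Type} (M : Λ → Ins Λ) (t t' : ℕ) (p : Λ × Store) :
    (fstep M)^[t + t'] p = (fstep M)^[t'] ((fstep M)^[t] p) := by
  rw [add_comm t t', Function.iterate_add_apply]

theorem fstep_keep {Λ : Type} (M : Λ → Ins Λ) (l : Λ) (s : Store) (k : ℕ) (f : Option Bool → Λ)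
    (h : M l = ⟨k, .keep, f⟩) : (fstep M)^[1] (l, s) = (f (s k).head?, s) := by
  simp [fstep, h, Act.app]

theorem fsim {Λ : Type} {c : Cmd} {s s' : Store} {t : ℕ} (h : Exec c s s' t) :
    ∀ (M : Λ → Ins Λ) (emb : Lab c → Λ) (exit : Λ), (∀ a, M (emb a) = flat c emb exit a) →
      (fstep M)^[t] (emb (entry c), s) = (exit, s') := by
  induction h with
  | skip s =>
    intro M emb exit hm
    simp [fstep, hm, flat, Act.app]
  | push k b s =>
    intro M emb exit hm
    simp [fstep, hm, flat, Act.app]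
  | pop k s =>
    intro M emb exit hm
    simp [fstep, hm, flat, Act.app]
  | @seq c d s s' s'' t t' _ _ ih1 ih2 =>
    intro M emb exit hm
    have h1 := ih1 M (fun x => emb (Sum.inl x)) (emb (Sum.inr (entry d))) (fun a => hm (Sum.inl a))
    have h2 := ih2 M (fun x => emb (Sum.inr x)) exit (fun a => hm (Sum.inr a))
    rw [iter_add]
    simp only [entry]
    rw [h1, h2]
  | @ite_nil k e c d s s' t hk _ ih =>
    intro M emb exit hm
    have h1 := ih M (fun x => emb (Sum.inr (Sum.inl x))) exit (fun a => hm (Sum.inr (Sum.inl a)))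
    rw [iter_add]
    have : (fstep M)^[1] (emb (entry (Cmd.ite k e c d)), s) =
        (emb (Sum.inr (Sum.inl (entry e))), s) := by
      rw [fstep_keep M _ s k _ (hm _), hk]
      rfl
    rw [this, h1]
  | @ite_true k e c d s s' t l hk _ ih =>
    intro M emb exit hm
    have h1 := ih M (fun x => emb (Sum.inr (Sum.inr (Sum.inl x)))) exit
      (fun a => hm (Sum.inr (Sum.inr (Sum.inl a))))
    rw [iter_add]
    have : (fstep M)^[1] (emb (entry (Cmd.ite k e c d)), s) =
        (emb (Sum.inr (Sum.inr (Sum.inl (entry c)))), s) := by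
      rw [fstep_keep M _ s k _ (hm _), hk]
      rfl
    rw [this, h1]
  | @ite_false k e c d s s' t l hk _ ih =>
    intro M emb exit hm
    have h1 := ih M (fun x => emb (Sum.inr (Sum.inr (Sum.inr x)))) exit
      (fun a => hm (Sum.inr (Sum.inr (Sum.inr a))))
    rw [iter_add]
    have : (fstep M)^[1] (emb (entry (Cmd.ite k e c d)), s) =
        (emb (Sum.inr (Sum.inr (Sum.inr (entry d)))), s) := by
      rw [fstep_keep M _ s k _ (hm _), hk]
      rfl
    rw [this, h1]
  | @loop_nil k c s hk =>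
    intro M emb exit hm
    rw [fstep_keep M _ s k _ (hm _), hk]
    rfl
  | @loop_cons k c s s' s'' t t' hk _ _ ih1 ih2 =>
    intro M emb exit hm
    obtain ⟨b, l, hbl⟩ : ∃ b l, s k = b :: l := List.exists_cons_of_ne_nil hk
    have h1 := ih1 M (fun x => emb (Sum.inr x)) (emb (Sum.inl ())) (fun a => hm (Sum.inr a))
    have h2 := ih2 M emb exit hm
    rw [iter_add, iter_add]
    have : (fstep M)^[1] (emb (entry (Cmd.loop k c)), s) = (emb (Sum.inr (entry c)), s) := by
      rw [fstep_keep M _ s k _ (hm _), hbl]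
      rfl
    rw [this, h1]
    simp only [entry] at h2
    exact h2

/-- the whole machine of a program: label `none` is the idle final label -/
def mach (c : Cmd) : Option (Lab c) → Ins (Option (Lab c))
  | none => ⟨0, .keep, fun _ => none⟩
  | some a => flat c some none a

theorem mach_idle (c : Cmd) (s : Store) (t : ℕ) : (fstep (mach c))^[t] (none, s) = (none, s) := by
  induction t with
  | zero => rfl
  | succ t ih =>
    rw [Function.iterate_succ_apply]
    have : fstep (mach c) (none, s) = (none, s) := by simp [fstep, mach, Act.app]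
    rw [this, ih]

theorem mach_run {c : Cmd} {s s' : Store} {T : ℕ} (h : Run c s s' T) :
    (fstep (mach c))^[T] (some (entry c), s) = (none, s') := by
  obtain ⟨t, ht, h⟩ := h
  obtain ⟨d, rfl⟩ := Nat.exists_eq_add_of_le ht
  rw [iter_add, fsim h (mach c) some none (fun _ => rfl), mach_idle]

/-- Every NP language is accepted by a flat machine reading `pair x u` for a certificate `u` of
prescribed polynomial length. -/
theorem exists_flat (A : Set (List Bool)) (hA : Crest.Complexity.InNP A) :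
    ∃ (Λ : Type) (_ : Finite Λ) (M : Λ → Ins Λ) (l₀ : Λ) (m T : List Bool → ℕ), PTU m ∧ PTU T ∧
      ∀ x, (x ∈ A ↔ ∃ u : List Bool, u.length = m x ∧
        (((fstep M)^[T x] (l₀, init (pair x u))).2 0).head? = some true) := by
  obtain ⟨V, p, hV, hA⟩ := hA
  have hV' : PTF V := polyTimePred₂_iff.1 hV
  have h1 : PTF (fun q : Bits × Bits => V (q.1.val, fst q.2.val)) := by
    refine PTF.comp hV' (PTF.prodMk (PTF.bitsVal PTF.fst) ?_)
    exact PTF.comp (PT.toPTF_list PT.fst) (PTF.bitsVal PTF.snd)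
  obtain ⟨g, ⟨c, q, hc⟩, hg⟩ := h1
  have hg' : ∀ x u, g (pair x u) = [V (x, fst u)] := fun x u => hg (Bits.mk x, Bits.mk u)
  have hm : PTU (fun x : List Bool => 2 * p.eval x.length + 1) :=
    PTU.succ (PTU.mul (PTU.const 2) (PTU.eval p (PTU.length PTF.id)))
  refine ⟨Option (Lab c), inferInstance, mach c, some (entry c),
    fun x => 2 * p.eval x.length + 1,
    fun x => q.eval (2 * x.length + 1 + (2 * p.eval x.length + 1)), hm, ?_, fun x => ?_⟩
  · exact PTU.eval q (PTU.add (PTU.succ (PTU.mul (PTU.const 2) (PTU.length PTF.id))) hm)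
  · have key : ∀ u : List Bool, u.length = 2 * p.eval x.length + 1 →
        (((fstep (mach c))^[q.eval (2 * x.length + 1 + (2 * p.eval x.length + 1))]
          (some (entry c), init (pair x u))).2 0).head? = some (V (x, fst u)) := by
      intro u hu
      have := mach_run (hc (pair x u))
      rw [length_pair, hu] at this
      rw [this, hg']
      rfl
    rw [hA x]
    dsimp only
    constructor
    · rintro ⟨w, hw, hVw⟩
      refine ⟨pair w (List.replicate (2 * p.eval x.length - 2 * w.length) false), ?_, ?_⟩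
      · rw [length_pair, List.length_replicate]; omega
      · rw [key _ (by rw [length_pair, List.length_replicate]; omega), fst_pair, hVw]
    · rintro ⟨u, hu, hVu⟩
      rw [key u hu] at hVu
      refine ⟨fst u, ?_, by simpa using hVu⟩
      have := length_fst_add_snd u
      omega

end Crest.Agent.T318.CL
private theorem rz_994d248266 : type_of% @_root_.Crest.Agent.T318.CL.Act.app.eq_1 := @_root_.Crest.Agent.T318.CL.Act.app.eq_1 -- L23
private theorem rz_f2656cf238 : type_of% @_root_.Crest.Agent.T318.CL.flat.eq_def := @_root_.Crest.Agent.T318.CL.flat.eq_def -- L43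
private theorem rz_26a142f161 : type_of% @_root_.Crest.Agent.T318.CL.flat.eq_1 := @_root_.Crest.Agent.T318.CL.flat.eq_1 -- L43
private theorem rz_5043a16062 : type_of% @_root_.Crest.Agent.T318.CL.mach.eq_1 := @_root_.Crest.Agent.T318.CL.mach.eq_1 -- L143
end

-- ▼ part T318/Tableau_17
section

/-!
# The tableau formula of a flat machine (Cook–Levin)

Only forward implications are written down: the variables of the true computation are forced to be
true, and the last row excludes the rejecting symbols.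
-/

set_option autoImplicit false

namespace Crest.Agent.T318.CL

open Crest.Agent.Lib.PT

/-- code of a cell content -/
def cv : Option Bool → ℕ
  | none => 0
  | some false => 1
  | some true => 2

theorem cv_inj {a b : Option Bool} (h : cv a = cv b) : a = b := by
  rcases a with _ | _ | _ <;> rcases b with _ | _ | _ <;> simp_all [cv]

theorem cv_le (a : Option Bool) : cv a ≤ 2 := by
  rcases a with _ | _ | _ <;> simp [cv]

/-- number of a variable -/
def vr (B t k i v : ℕ) : ℕ := ((t * B + k) * B + i) * B + v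

theorem vr_lt {B t k i v : ℕ} (ht : t < B) (hk : k < B) (hi : i < B) (hv : v < B) :
    vr B t k i v < B * B * B * B := by
  unfold vr
  have h1 : t * B + k + 1 ≤ B * B := by nlinarith
  have h2 : (t * B + k) * B + i + 1 ≤ B * B * B := by nlinarith
  nlinarith

theorem vr_dec {B t k i v : ℕ} (hk : k < B) (hi : i < B) (hv : v < B) :
    vr B t k i v / B / B / B = t ∧ vr B t k i v / B / B % B = k ∧ vr B t k i v / B % B = i ∧
      vr B t k i v % B = v := by
  have hB : 0 < B := by omega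
  have e : ∀ a r : ℕ, r < B → (a * B + r) / B = a ∧ (a * B + r) % B = r := by
    intro a r hr
    constructor
    · rw [add_comm, Nat.add_mul_div_right _ _ hB, Nat.div_eq_of_lt hr, zero_add]
    · rw [add_comm, Nat.add_mul_mod_self_right, Nat.mod_eq_of_lt hr]
  unfold vr
  rw [(e _ v hv).1, (e _ v hv).2, (e _ i hi).1, (e _ i hi).2, (e _ k hk).1, (e _ k hk).2]
  exact ⟨rfl, rfl, rfl, rfl⟩

/-- clauses: a literal `(v, b)` holds when variable `v` has the value `b` -/
abbrev Cl : Type := List (ℕ × Bool)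

/-- satisfaction of a list of clauses -/
def Sat (σ : ℕ → Bool) (F : List Cl) : Prop := ∀ c ∈ F, ∃ l ∈ c, σ l.1 = l.2

/-- the three cell contents -/
def vals : List (Option Bool) := [none, some false, some true]

theorem mem_vals (v : Option Bool) : v ∈ vals := by
  rcases v with _ | _ | _ <;> simp [vals]

/-- cell variable -/
def cel (B t k i : ℕ) (v : Option Bool) : ℕ := vr B t k i (cv v)

section

variable {Λ : Type} (M : Λ → Ins Λ) (ι : Λ → ℕ) (K : ℕ) (Ls : List Λ) (l₀ : Λ)

/-- label variable -/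
def lab (B t : ℕ) (l : Λ) : ℕ := vr B t (K + 1) 0 (ι l)

/-- the action of label `l` on stack `k` -/
def eff (l : Λ) (k : ℕ) : Act := if k = (M l).k then (M l).act else .keep

theorem fstep_snd (p : Λ × Store) (k : ℕ) : (fstep M p).2 k = (eff M p.1 k).app (p.2 k) := by
  unfold fstep eff
  by_cases h : k = (M p.1).k
  · subst h; simp
  · simp [h, Act.app]

/-- clauses moving the cells -/
def cellCl (B t : ℕ) (l : Λ) (k i : ℕ) (v : Option Bool) : Act → List Cl
  | .keep => [[(lab ι K B t l, false), (cel B t k i v, false), (cel B (t + 1) k i v, true)]]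
  | .pop => [[(lab ι K B t l, false), (cel B t k (i + 1) v, false), (cel B (t + 1) k i v, true)]]
  | .push b => [[(lab ι K B t l, false), (cel B (t + 1) k 0 (some b), true)],
      [(lab ι K B t l, false), (cel B t k i v, false), (cel B (t + 1) k (i + 1) v, true)]]

/-- clauses of one step at one label -/
def transCl (B S t : ℕ) (l : Λ) : List Cl :=
  vals.flatMap (fun v => [[(lab ι K B t l, false), (cel B t (M l).k 0 v, false),
      (lab ι K B (t + 1) ((M l).nx v), true)]]) ++
    (List.range (K + 1)).flatMap (fun k => vals.flatMap (fun v =>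
      (List.range S).flatMap (fun i => cellCl ι K B t l k i v (eff M l k))))

/-- clauses of the first row -/
def initCl (B S : ℕ) (z : List Bool) (m : ℕ) : List Cl :=
  [[(lab ι K B 0 l₀, true)]] ++
    ((List.range z.length).zip z).map (fun p => [(vr B 0 0 p.1 (bif p.2 then 2 else 1), true)]) ++
    (List.range m).map (fun j => [(cel B 0 0 (z.length + j) (some false), true),
      (cel B 0 0 (z.length + j) (some true), true)]) ++
    (List.range S).map (fun j => [(cel B 0 0 (z.length + m + j) none, true)]) ++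
    (List.range K).flatMap (fun k => (List.range S).map (fun i => [(cel B 0 (k + 1) i none, true)]))

/-- clauses of the last row -/
def finCl (B T : ℕ) : List Cl := [[(cel B T 0 0 none, false)], [(cel B T 0 0 (some false), false)]]

/-- the tableau formula -/
def form (B T : ℕ) (z : List Bool) (m : ℕ) : List Cl :=
  initCl ι K l₀ B (T + 1) z m ++
    (List.range T).flatMap (fun t => Ls.flatMap (fun l => transCl M ι K B (T + 1) t l)) ++ finCl B T

theorem cv_some (b : Bool) : (bif b then 2 else 1) = cv (some b) := by cases b <;> rfl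

theorem mem_zip_range {z : List Bool} {p : ℕ × Bool} :
    p ∈ (List.range z.length).zip z ↔ z[p.1]? = some p.2 := by
  constructor
  · intro h
    obtain ⟨i, hi, rfl⟩ := List.mem_iff_getElem.1 h
    simp only [List.length_zip, List.length_range, min_self] at hi
    simp [List.getElem_zip, hi]
  · intro h
    obtain ⟨hi, h2⟩ := List.getElem?_eq_some_iff.1 h
    refine List.mem_iff_getElem.2 ⟨p.1, by simpa using hi, ?_⟩
    simp [List.getElem_zip, h2]

/-! ### soundness -/

theorem sound (hK : ∀ l, (M l).k ≤ K) (hLs : ∀ l, l ∈ Ls) {B T m : ℕ} {z : List Bool}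
    {σ : ℕ → Bool} (h : Sat σ (form M ι K Ls l₀ B T z m)) :
    ∃ u : List Bool, u.length = m ∧
      (((fstep M)^[T] (l₀, init (z ++ u))).2 0).head? = some true := by
  set u : List Bool := (List.range m).map (fun j => σ (cel B 0 0 (z.length + j) (some true))) with hu
  have hul : u.length = m := by simp [hu]
  refine ⟨u, hul, ?_⟩
  have hI : Sat σ (initCl ι K l₀ B (T + 1) z m) := fun c hc => h c (by simp [form, hc])
  have hT : ∀ t < T, ∀ l, Sat σ (transCl M ι K B (T + 1) t l) := fun t ht l c hc => h c (by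
    simp only [form, List.mem_append, List.mem_flatMap, List.mem_range]
    exact Or.inl (Or.inr ⟨t, ht, l, hLs l, hc⟩))
  have hF : Sat σ (finCl B T) := fun c hc => h c (by simp [form, hc])
  have key : ∀ t ≤ T, σ (lab ι K B t ((fstep M)^[t] (l₀, init (z ++ u))).1) = true ∧
      ∀ k ≤ K, ∀ i, i + t ≤ T →
        σ (cel B t k i (((fstep M)^[t] (l₀, init (z ++ u))).2 k)[i]?) = true := by
    intro t
    induction t with
    | zero =>
      intro _
      refine ⟨?_, fun k hk i hi => ?_⟩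
      · have := hI [(lab ι K B 0 l₀, true)] (by simp [initCl])
        simpa using this
      · simp only [Function.iterate_zero, id]
        rcases k with _ | k
        · rw [init_zero]
          by_cases h1 : i < z.length
          · have h2 : (z ++ u)[i]? = some z[i] := by
              rw [List.getElem?_append_left h1, List.getElem?_eq_getElem h1]
            have := hI [(vr B 0 0 i (bif z[i] then 2 else 1), true)] (by
              simp only [initCl, List.mem_append, List.mem_map]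
              refine Or.inl (Or.inl (Or.inl (Or.inr ⟨(i, z[i]), ?_, rfl⟩)))
              exact mem_zip_range.2 (List.getElem?_eq_getElem h1))
            rw [h2]
            simpa [cel, cv_some] using this
          · by_cases h2 : i < z.length + m
            · obtain ⟨j, rfl⟩ : ∃ j, i = z.length + j := ⟨i - z.length, by omega⟩
              have hj : j < m := by omega
              have h3 : (z ++ u)[z.length + j]? =
                  some (σ (cel B 0 0 (z.length + j) (some true))) := by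
                rw [List.getElem?_append_right (by omega), Nat.add_sub_cancel_left, hu]
                simp [hj]
              have := hI [(cel B 0 0 (z.length + j) (some false), true),
                  (cel B 0 0 (z.length + j) (some true), true)] (by
                simp only [initCl, List.mem_append, List.mem_map, List.mem_range]
                exact Or.inl (Or.inl (Or.inr ⟨j, hj, rfl⟩)))
              rw [h3]
              cases h4 : σ (cel B 0 0 (z.length + j) (some true))
              · simpa [h4] using this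
              · exact h4
            · obtain ⟨j, rfl⟩ : ∃ j, i = z.length + m + j := ⟨i - (z.length + m), by omega⟩
              have h3 : (z ++ u)[z.length + m + j]? = none := by
                rw [List.getElem?_eq_none_iff, List.length_append, hul]; omega
              have := hI [(cel B 0 0 (z.length + m + j) none, true)] (by
                simp only [initCl, List.mem_append, List.mem_map, List.mem_range]
                exact Or.inl (Or.inr ⟨j, by omega, rfl⟩))
              rw [h3]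
              simpa using this
        · have := hI [(cel B 0 (k + 1) i none, true)] (by
            simp only [initCl, List.mem_append, List.mem_map, List.mem_range, List.mem_flatMap]
            exact Or.inr ⟨k, by omega, i, by omega, rfl⟩)
          rw [init_succ]
          simpa using this
    | succ t ih =>
      intro ht
      obtain ⟨ihl, ihc⟩ := ih (by omega)
      rw [Function.iterate_succ_apply']
      set p := (fstep M)^[t] (l₀, init (z ++ u)) with hp
      have hTt := hT t (by omega) p.1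
      refine ⟨?_, fun k hk i hi => ?_⟩
      · have h1 := ihc (M p.1).k (hK _) 0 (by omega)
        have := hTt [(lab ι K B t p.1, false), (cel B t (M p.1).k 0 (p.2 (M p.1).k)[0]?, false),
            (lab ι K B (t + 1) ((M p.1).nx (p.2 (M p.1).k)[0]?), true)] (by
          simp only [transCl, List.mem_append, List.mem_flatMap]
          exact Or.inl ⟨_, mem_vals _, List.mem_singleton.2 rfl⟩)
        simp only [fstep, List.head?_eq_getElem?]
        simpa [ihl, h1] using this
      · have hC : ∀ v j, j < T + 1 → Sat σ (cellCl ι K B t p.1 k j v (eff M p.1 k)) := by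
          intro v j hj c hc
          refine hTt c ?_
          simp only [transCl, List.mem_append, List.mem_flatMap, List.mem_range]
          exact Or.inr ⟨k, by omega, v, mem_vals v, j, hj, hc⟩
        rw [fstep_snd]
        rcases he : eff M p.1 k with _ | _ | b
        · have h1 := ihc k hk i (by omega)
          have := hC (p.2 k)[i]? i (by omega)
          rw [he] at this
          have := this _ (List.mem_singleton.2 rfl)
          simpa [ihl, h1, Act.app] using this
        · have h1 := ihc k hk (i + 1) (by omega)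
          have := hC (p.2 k)[i + 1]? i (by omega)
          rw [he] at this
          have := this _ (List.mem_singleton.2 rfl)
          simpa [ihl, h1, Act.app] using this
        · rcases i with _ | i
          · have := hC none 0 (by omega)
            rw [he] at this
            have := this _ List.mem_cons_self
            simpa [ihl, Act.app] using this
          · have h1 := ihc k hk i (by omega)
            have := hC (p.2 k)[i]? i (by omega)
            rw [he] at this
            have := this _ (List.mem_cons_of_mem _ List.mem_cons_self)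
            simpa [ihl, h1, Act.app] using this
  have h1 := (key T le_rfl).2 0 (Nat.zero_le _) 0 (by omega)
  have h2 := hF [(cel B T 0 0 none, false)] (by simp [finCl])
  have h3 := hF [(cel B T 0 0 (some false), false)] (by simp [finCl])
  rw [List.head?_eq_getElem?]
  rcases h4 : (((fstep M)^[T] (l₀, init (z ++ u))).2 0)[0]? with _ | _ | _
  · rw [h4] at h1; simp [h1] at h2
  · rw [h4] at h1; simp [h1] at h3
  · rfl

/-! ### completeness -/

theorem complete (hι : Function.Injective ι) (hK : ∀ l, (M l).k ≤ K) {B T m : ℕ} {z : List Bool}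
    (hB1 : ∀ l, ι l < B) (hB2 : K + 1 < B) (hB3 : z.length + m + T + 2 < B)
    {u : List Bool} (hu : u.length = m)
    (hacc : (((fstep M)^[T] (l₀, init (z ++ u))).2 0).head? = some true) :
    ∃ σ, Sat σ (form M ι K Ls l₀ B T z m) := by
  classical
  set cfg : ℕ → Λ × Store := fun t => (fstep M)^[t] (l₀, init (z ++ u)) with hcfg
  let σ : ℕ → Bool := fun n => decide (if n / B / B % B = K + 1 then
    ι (cfg (n / B / B / B)).1 = n % B
    else cv ((cfg (n / B / B / B)).2 (n / B / B % B))[n / B % B]? = n % B)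
  have hL : ∀ t l, σ (lab ι K B t l) = decide ((cfg t).1 = l) := by
    intro t l
    obtain ⟨h1, h2, h3, h4⟩ := vr_dec (t := t) hB2 (show 0 < B by omega) (hB1 l)
    simp only [σ, lab, h1, h2, h4, if_true, hι.eq_iff]
  have hC : ∀ t k i v, k ≤ K → i < B → σ (cel B t k i v) = decide (((cfg t).2 k)[i]? = v) := by
    intro t k i v hk hi
    obtain ⟨h1, h2, h3, h4⟩ := vr_dec (t := t) (show k < B by omega) hi
      (show cv v < B by have := cv_le v; omega)
    have : k ≠ K + 1 := by omega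
    simp only [σ, cel, h1, h2, h3, h4, this, if_false]
    congr 1
    exact propext ⟨cv_inj, fun h => by rw [h]⟩
  have hs : ∀ t, cfg (t + 1) = fstep M (cfg t) := fun t => Function.iterate_succ_apply' _ _ _
  have h0 : cfg 0 = (l₀, init (z ++ u)) := rfl
  refine ⟨σ, fun c hc => ?_⟩
  simp only [form, initCl, finCl, transCl, List.mem_append, List.mem_map, List.mem_flatMap,
    List.mem_range, List.mem_cons, List.not_mem_nil, or_false] at hc
  rcases hc with ((((((rfl | ⟨p, hp, rfl⟩) | ⟨j, hj, rfl⟩) | ⟨j, hj, rfl⟩) | ⟨k, hk, i, hi, rfl⟩) |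
    ⟨t, ht, l, -, (⟨v, -, rfl⟩ | ⟨k, hk, v, -, i, hi, hc⟩)⟩) | (rfl | rfl))
  · simp [hL, h0]
  · have h1 := mem_zip_range.1 hp
    obtain ⟨hi, h2⟩ := List.getElem?_eq_some_iff.1 h1
    have := hC 0 0 p.1 (some p.2) (Nat.zero_le _) (by omega)
    simp only [h0, init_zero, List.getElem?_append_left hi, h1] at this
    simpa [cel, cv_some] using this
  · have h1 : (z ++ u)[z.length + j]? = some (u[j]'(by omega)) := by
      rw [List.getElem?_append_right (by omega), Nat.add_sub_cancel_left,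
        List.getElem?_eq_getElem]
    simp only [List.mem_cons, List.not_mem_nil, or_false, exists_eq_or_imp, exists_eq_left,
      hC 0 0 (z.length + j) _ (Nat.zero_le _) (by omega), h0, init_zero, h1]
    cases u[j]'(by omega) <;> simp
  · have h1 : (z ++ u)[z.length + m + j]? = none := by
      rw [List.getElem?_eq_none_iff, List.length_append, hu]; omega
    simp [hC 0 0 (z.length + m + j) _ (Nat.zero_le _) (by omega), h0, h1]
  · simp [hC 0 (k + 1) i _ (by omega) (by omega), h0]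
  · simp only [List.mem_cons, List.not_mem_nil, or_false, exists_eq_or_imp, exists_eq_left, hL,
      hC t (M l).k 0 v (hK l) (by omega), hs]
    by_cases h1 : (cfg t).1 = l
    · by_cases h2 : ((cfg t).2 (M l).k)[0]? = v
      · right; right
        subst h1
        simp [fstep, List.head?_eq_getElem?, h2]
      · simp [h2]
    · simp [h1]
  · by_cases h1 : (cfg t).1 = l
    swap
    · rcases he : eff M l k with _ | _ | b <;> rw [he] at hc <;>
        simp only [cellCl, List.mem_cons, List.not_mem_nil, or_false] at hc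
      · subst hc; simp [hL, h1]
      · subst hc; simp [hL, h1]
      · rcases hc with rfl | rfl <;> simp [hL, h1]
    have h2 : (cfg (t + 1)).2 k = (eff M l k).app ((cfg t).2 k) := by rw [hs, fstep_snd, h1]
    have hk' : k ≤ K := by omega
    rcases he : eff M l k with _ | _ | b <;> rw [he] at hc h2 <;>
      simp only [cellCl, List.mem_cons, List.not_mem_nil, or_false] at hc
    · subst hc
      simp only [List.mem_cons, List.not_mem_nil, or_false, exists_eq_or_imp, exists_eq_left,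
        hC _ k i v hk' (by omega), h2, Act.app]
      by_cases h3 : ((cfg t).2 k)[i]? = v <;> simp [h3]
    · subst hc
      simp only [List.mem_cons, List.not_mem_nil, or_false, exists_eq_or_imp, exists_eq_left,
        hC _ k i v hk' (by omega), hC _ k (i + 1) v hk' (by omega), h2, Act.app]
      by_cases h3 : ((cfg t).2 k)[i + 1]? = v <;> simp [h3]
    · rcases hc with rfl | rfl
      · simp [hC _ k 0 _ hk' (by omega), h2, Act.app]
      · simp only [List.mem_cons, List.not_mem_nil, or_false, exists_eq_or_imp, exists_eq_left,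
          hC _ k i v hk' (by omega), hC _ k (i + 1) v hk' (by omega), h2, Act.app]
        by_cases h3 : ((cfg t).2 k)[i]? = v <;> simp [h3]
  · rw [List.head?_eq_getElem?] at hacc
    simp [hC T 0 0 _ (Nat.zero_le _) (by omega), hcfg, hacc]
  · rw [List.head?_eq_getElem?] at hacc
    simp [hC T 0 0 _ (Nat.zero_le _) (by omega), hcfg, hacc]

/-! ### shape -/

theorem shape (hK : ∀ l, (M l).k ≤ K) {B T m : ℕ} {z : List Bool}
    (hB1 : ∀ l, ι l < B) (hB2 : K + 1 < B) (hB3 : z.length + m + T + 2 < B) :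
    ∀ c ∈ form M ι K Ls l₀ B T z m, c ≠ [] ∧ ∀ l ∈ c, l.1 < B * B * B * B := by
  have hL : ∀ t l, t < B → lab ι K B t l < B * B * B * B := fun t l ht =>
    vr_lt ht hB2 (by omega) (hB1 l)
  have hC : ∀ t k i v, t < B → k ≤ K → i < B → cel B t k i v < B * B * B * B :=
    fun t k i v ht hk hi => vr_lt ht (by omega) hi (by have := cv_le v; omega)
  intro c hc
  simp only [form, initCl, finCl, transCl, List.mem_append, List.mem_map, List.mem_flatMap,
    List.mem_range, List.mem_cons, List.not_mem_nil, or_false] at hc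
  rcases hc with ((((((rfl | ⟨p, hp, rfl⟩) | ⟨j, hj, rfl⟩) | ⟨j, hj, rfl⟩) | ⟨k, hk, i, hi, rfl⟩) |
    ⟨t, ht, l, -, (⟨v, -, rfl⟩ | ⟨k, hk, v, -, i, hi, hc⟩)⟩) | (rfl | rfl))
  · simpa using hL 0 l₀ (by omega)
  · obtain ⟨hi, h2⟩ := List.getElem?_eq_some_iff.1 (mem_zip_range.1 hp)
    have := hC 0 0 p.1 (some p.2) (by omega) (Nat.zero_le _) (by omega)
    simpa [cel, cv_some] using this
  · simpa using ⟨hC 0 0 _ _ (by omega) (Nat.zero_le _) (by omega),
      hC 0 0 _ _ (by omega) (Nat.zero_le _) (by omega)⟩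
  · simpa using hC 0 0 _ _ (by omega) (Nat.zero_le _) (by omega)
  · simpa using hC 0 (k + 1) _ _ (by omega) (by omega) (by omega)
  · simpa using ⟨hL t l (by omega), hC t _ 0 v (by omega) (hK l) (by omega),
      hL (t + 1) _ (by omega)⟩
  · have hk' : k ≤ K := by omega
    rcases he : eff M l k with _ | _ | b <;> rw [he] at hc <;>
      simp only [cellCl, List.mem_cons, List.not_mem_nil, or_false] at hc
    · subst hc
      simpa using ⟨hL t l (by omega), hC t k i v (by omega) hk' (by omega),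
        hC (t + 1) k i v (by omega) hk' (by omega)⟩
    · subst hc
      simpa using ⟨hL t l (by omega), hC t k (i + 1) v (by omega) hk' (by omega),
        hC (t + 1) k i v (by omega) hk' (by omega)⟩
    · rcases hc with rfl | rfl
      · simpa using ⟨hL t l (by omega), hC (t + 1) k 0 _ (by omega) hk' (by omega)⟩
      · simpa using ⟨hL t l (by omega), hC t k i v (by omega) hk' (by omega),
          hC (t + 1) k (i + 1) v (by omega) hk' (by omega)⟩
  · simpa using hC T 0 0 _ (by omega) (Nat.zero_le _) (by omega)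
  · simpa using hC T 0 0 _ (by omega) (Nat.zero_le _) (by omega)

end

end Crest.Agent.T318.CL
private theorem rz_687cb6579c : type_of% @_root_.Crest.Agent.T318.CL.cellCl.eq_1 := @_root_.Crest.Agent.T318.CL.cellCl.eq_1 -- L83
private theorem rz_6a73bef9a3 : type_of% @_root_.Crest.Agent.T318.CL.cv.eq_1 := @_root_.Crest.Agent.T318.CL.cv.eq_1 -- L17
end

-- ▼ part T318/CookLevin_17
section

/-!
# Cook–Levin: every NP language reduces in polynomial time to satisfiability of clause lists
-/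

set_option autoImplicit false

namespace Crest.Agent.T318.CL

open Crest.Agent.Lib.PT

theorem ptf_flatMap_const {γ α β : Type} [PTCode γ] [PTCode β] (L : List α) {f : γ → α → List β}
    (hf : ∀ a, PTF (fun c => f c a)) : PTF (fun c => L.flatMap (f c)) := by
  induction L with
  | nil => exact PTF.const []
  | cons a L ih => exact (PTF.append (hf a) ih).of_eq (fun c => by simp)

theorem ptf_vr {γ : Type} [PTCode γ] {B t k i v : γ → ℕ} (hB : PTF B) (ht : PTF t) (hk : PTF k)
    (hi : PTF i) (hv : PTF v) : PTF (fun c => vr (B c) (t c) (k c) (i c) (v c)) :=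
  PTF.natAdd (PTF.natMul (PTF.natAdd (PTF.natMul (PTF.natAdd (PTF.natMul ht hB) hk) hB) hi) hB) hv

theorem ptf_cel {γ : Type} [PTCode γ] {B t k i : γ → ℕ} (hB : PTF B) (ht : PTF t) (hk : PTF k)
    (hi : PTF i) (v : Option Bool) : PTF (fun c => cel (B c) (t c) (k c) (i c) v) :=
  ptf_vr hB ht hk hi (PTF.const _)

theorem ptf_succ {γ : Type} [PTCode γ] {t : γ → ℕ} (ht : PTF t) : PTF (fun c => t c + 1) :=
  PTF.natAdd ht (PTF.const 1)

theorem ptf_lit {γ : Type} [PTCode γ] {t : γ → ℕ} (ht : PTF t) (b : Bool) :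
    PTF (fun c => (t c, b)) := PTF.prodMk ht (PTF.const b)

theorem ptf_l1 {γ α : Type} [PTCode γ] [PTCode α] {a : γ → α} (ha : PTF a) :
    PTF (fun c => [a c]) := PTF.listCons ha (PTF.const [])

theorem ptf_l2 {γ α : Type} [PTCode γ] [PTCode α] {a b : γ → α} (ha : PTF a) (hb : PTF b) :
    PTF (fun c => [a c, b c]) := PTF.listCons ha (ptf_l1 hb)

theorem ptf_l3 {γ α : Type} [PTCode γ] [PTCode α] {a b d : γ → α} (ha : PTF a) (hb : PTF b)
    (hd : PTF d) : PTF (fun c => [a c, b c, d c]) := PTF.listCons ha (ptf_l2 hb hd)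

section

variable {Λ : Type} (M : Λ → Ins Λ) (ι : Λ → ℕ) (K : ℕ) (Ls : List Λ) (l₀ : Λ)
variable {γ : Type} [PTCode γ]

theorem ptf_lab {B t : γ → ℕ} (hB : PTF B) (ht : PTF t) (l : Λ) :
    PTF (fun c => lab ι K (B c) (t c) l) :=
  ptf_vr hB ht (PTF.const _) (PTF.const _) (PTF.const _)

theorem ptf_cellCl {B t i : γ → ℕ} (hB : PTF B) (ht : PTF t) (hi : PTF i) (l : Λ) (k : ℕ)
    (v : Option Bool) (a : Act) : PTF (fun c => cellCl ι K (B c) (t c) l k (i c) v a) := by
  have hl := ptf_lit (ptf_lab ι K hB ht l) false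
  rcases a with _ | _ | b
  · exact ptf_l1 (ptf_l3 hl (ptf_lit (ptf_cel hB ht (PTF.const k) hi v) false)
      (ptf_lit (ptf_cel hB (ptf_succ ht) (PTF.const k) hi v) true))
  · exact ptf_l1 (ptf_l3 hl (ptf_lit (ptf_cel hB ht (PTF.const k) (ptf_succ hi) v) false)
      (ptf_lit (ptf_cel hB (ptf_succ ht) (PTF.const k) hi v) true))
  · exact ptf_l2 (ptf_l2 hl
      (ptf_lit (ptf_cel hB (ptf_succ ht) (PTF.const k) (PTF.const 0) (some b)) true))
      (ptf_l3 hl (ptf_lit (ptf_cel hB ht (PTF.const k) hi v) false)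
        (ptf_lit (ptf_cel hB (ptf_succ ht) (PTF.const k) (ptf_succ hi) v) true))

theorem ptf_transCl {B S t : γ → ℕ} (hB : PTF B) (hS : PTU S) (ht : PTF t) (l : Λ) :
    PTF (fun c => transCl M ι K (B c) (S c) (t c) l) := by
  unfold transCl
  refine PTF.append (ptf_flatMap_const vals fun v => ?_)
    (ptf_flatMap_const (List.range (K + 1)) fun k => ptf_flatMap_const vals fun v => ?_)
  · exact ptf_l1 (ptf_l3 (ptf_lit (ptf_lab ι K hB ht l) false)
      (ptf_lit (ptf_cel hB ht (PTF.const _) (PTF.const 0) v) false)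
      (ptf_lit (ptf_lab ι K hB (ptf_succ ht) _) true))
  · exact PTF.flatMap (PTF.range hS)
      (ptf_cellCl ι K (PTF.comp hB PTF.fst) (PTF.comp ht PTF.fst) PTF.snd l k v _)

theorem ptf_initCl {B S m : γ → ℕ} {z : γ → List Bool} (hB : PTF B) (hS : PTU S) (hz : PTF z)
    (hm : PTU m) : PTF (fun c => initCl ι K l₀ (B c) (S c) (z c) (m c)) := by
  unfold initCl
  have hzl : PTF (fun c => (z c).length) := (PTU.length hz).toPTF
  refine PTF.append (PTF.append (PTF.append (PTF.append ?_ ?_) ?_) ?_) ?_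
  · exact ptf_l1 (ptf_l1 (ptf_lit (ptf_lab ι K hB (PTF.const 0) l₀) true))
  · refine PTF.map (PTF.zip (PTF.range (PTU.length hz)) hz) ?_
    exact ptf_l1 (ptf_lit (ptf_vr (PTF.comp hB PTF.fst) (PTF.const 0) (PTF.const 0)
      (PTF.comp PTF.fst PTF.snd)
      (PTF.cond (PTF.comp PTF.snd PTF.snd) (PTF.const 2) (PTF.const 1))) true)
  · refine PTF.map (PTF.range hm) ?_
    have h := PTF.natAdd (PTF.comp hzl PTF.fst) (PTF.snd (α := γ) (β := ℕ))
    exact ptf_l2 (ptf_lit (ptf_cel (PTF.comp hB PTF.fst) (PTF.const 0) (PTF.const 0) h _) true)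
      (ptf_lit (ptf_cel (PTF.comp hB PTF.fst) (PTF.const 0) (PTF.const 0) h _) true)
  · refine PTF.map (PTF.range hS) ?_
    have h := PTF.natAdd (PTF.natAdd (PTF.comp hzl PTF.fst) (PTF.comp hm.toPTF PTF.fst))
      (PTF.snd (α := γ) (β := ℕ))
    exact ptf_l1 (ptf_lit (ptf_cel (PTF.comp hB PTF.fst) (PTF.const 0) (PTF.const 0) h _) true)
  · refine ptf_flatMap_const (List.range K) fun k => PTF.map (PTF.range hS) ?_
    exact ptf_l1 (ptf_lit (ptf_cel (PTF.comp hB PTF.fst) (PTF.const 0) (PTF.const (k + 1))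
      PTF.snd _) true)

theorem ptf_form {B T m : γ → ℕ} {z : γ → List Bool} (hB : PTF B) (hT : PTU T) (hz : PTF z)
    (hm : PTU m) : PTF (fun c => form M ι K Ls l₀ (B c) (T c) (z c) (m c)) := by
  unfold form finCl
  refine PTF.append (PTF.append (ptf_initCl ι K l₀ hB hT.succ hz hm) ?_) ?_
  · refine PTF.flatMap (PTF.range hT) ?_
    exact ptf_flatMap_const (γ := γ × ℕ) Ls
      (f := fun p l => transCl M ι K (B p.1) (T p.1 + 1) p.2 l) fun l =>
      ptf_transCl M ι K (PTF.comp hB PTF.fst) (PTU.comp hT.succ PTF.fst) PTF.snd l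
  · exact ptf_l2 (ptf_l1 (ptf_lit (ptf_cel hB hT.toPTF (PTF.const 0) (PTF.const 0) _) false))
      (ptf_l1 (ptf_lit (ptf_cel hB hT.toPTF (PTF.const 0) (PTF.const 0) _) false))

end

theorem pair_eq_append (x u : List Bool) : pair x u = pair x [] ++ u := by
  simp [pair]

end Crest.Agent.T318.CL

namespace Crest.Agent.T318

open Crest.Agent.Lib.PT CL

/-- **Cook–Levin.** -/
theorem cookLevin_17 (A : Set (List Bool)) (hA : Crest.Complexity.InNP A) :
    ∃ (n : List Bool → ℕ) (F : List Bool → List (List (ℕ × Bool))), PTU n ∧ PTF F ∧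
      ∀ x, 0 < n x ∧ (∀ c ∈ F x, c ≠ [] ∧ ∀ l ∈ c, l.1 < n x) ∧
        (x ∈ A ↔ ∃ σ : ℕ → Bool, ∀ c ∈ F x, ∃ l ∈ c, σ l.1 = l.2) := by
  classical
  obtain ⟨Λ, hΛ, M, l₀, m, T, hm, hT, hA⟩ := exists_flat A hA
  have := Fintype.ofFinite Λ
  let ι : Λ → ℕ := fun l => (Fintype.equivFin Λ l : ℕ)
  have hι : Function.Injective ι := fun a b h => (Fintype.equivFin Λ).injective (Fin.ext h)
  have hιlt : ∀ l, ι l < Fintype.card Λ := fun l => (Fintype.equivFin Λ l).2
  let K : ℕ := Finset.univ.sup fun l => (M l).k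
  have hK : ∀ l, (M l).k ≤ K := fun l =>
    Finset.le_sup (f := fun l => (M l).k) (Finset.mem_univ l)
  let Ls : List Λ := Finset.univ.toList
  have hLs : ∀ l, l ∈ Ls := fun l => by simp [Ls]
  have hz : PTF (fun x : List Bool => pair x []) :=
    PT.toPTF_list (PT.pair PT.id (PT.const []))
  let B : List Bool → ℕ := fun x => (pair x []).length + m x + T x + (K + Fintype.card Λ + 3)
  have hB : PTU B := PTU.add (PTU.add (PTU.add (PTU.length hz) hm) hT) (PTU.const _)
  have hB1 : ∀ x l, ι l < B x := fun x l => by have := hιlt l; simp only [B]; omega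
  have hB2 : ∀ x, K + 1 < B x := fun x => by simp only [B]; omega
  have hB3 : ∀ x, (pair x []).length + m x + T x + 2 < B x := fun x => by simp only [B]; omega
  refine ⟨fun x => B x * B x * B x * B x, fun x => form M ι K Ls l₀ (B x) (T x) (pair x []) (m x),
    PTU.mul (PTU.mul (PTU.mul hB hB) hB) hB, ptf_form M ι K Ls l₀ hB.toPTF hT hz hm,
    fun x => ⟨?_, shape M ι K Ls l₀ hK (hB1 x) (hB2 x) (hB3 x), ?_⟩⟩
  · have := hB2 x
    have : 0 < B x := by omega
    positivity
  · rw [hA x]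
    constructor
    · rintro ⟨u, hu, h⟩
      rw [pair_eq_append] at h
      exact complete M ι K Ls l₀ hι hK (hB1 x) (hB2 x) (hB3 x) hu h
    · rintro ⟨σ, hσ⟩
      obtain ⟨u, hu, h⟩ := sound M ι K Ls l₀ hK hLs hσ
      exact ⟨u, hu, by rw [pair_eq_append]; exact h⟩

end Crest.Agent.T318
end

-- ▼ part T318/Hyper_17

/-!
# Row 318: hypergraph form of Cook–Levin and assembly of the two cores
-/

set_option autoImplicit false

namespace Crest.Agent.T318

open Crest.Agent.Lib.PT C25

/-- an edge-free set of size `k` gives a `1`-fold solution -/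
theorem frac_of_set_17 {n k : ℕ} {E : List (List ℕ)} (hW : WF n E k) (S : Finset ℕ)
    (hS : S ⊆ Finset.range n) (hk : S.card = k) (hE : ∀ e ∈ E, ∃ v ∈ e, v ∉ S) :
    ∃ x y, Frac n E k 1 x y := by
  classical
  have hch : ∀ i : ℕ, ∃ v : ℕ, i < E.length → v ∈ E.getD i [] ∧ v ∉ S := by
    intro i
    by_cases hi : i < E.length
    · obtain ⟨v, hv, hv'⟩ := hE (E.getD i []) (by
        rw [List.getD_eq_getElem _ _ hi]; exact List.getElem_mem hi)
      exact ⟨v, fun _ => ⟨hv, hv'⟩⟩
    · exact ⟨0, fun h => absurd h hi⟩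
  choose ch hch using hch
  refine ⟨fun v => if v ∈ S then 1 else 0, fun i v => if v = ch i then 1 else 0, ?_, ?_, ?_, ?_⟩
  · rw [Finset.sum_ite_mem, Finset.inter_eq_right.2 hS]
    simp [hk]
  · intro i hi
    rw [Finset.sum_ite_eq']
    have h1 := (hch i hi).1
    have h2 : ch i < n := hW.lt _ (by
      rw [List.getD_eq_getElem _ _ hi]; exact List.getElem_mem hi) _ h1
    rw [if_pos (Finset.mem_filter.2 ⟨Finset.mem_range.2 h2, h1⟩)]
  · intro v _
    split_ifs <;> omega
  · intro i hi v _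
    by_cases h : v = ch i
    · have := (hch i hi).2
      simp [h, this]
    · simp only [h, if_false]
      split_ifs <;> omega

/-- the hypergraph of a clause list over `n` variables: vertex `2 v + 1` means that `v` is true,
vertex `2 v` that it is false -/
def hyE (n : ℕ) (F : List (List (ℕ × Bool))) : List (List ℕ) :=
  (List.range n).map (fun v => [2 * v, 2 * v + 1]) ++
    F.map (fun c => c.map fun l => 2 * l.1 + bif l.2 then 0 else 1)

theorem hyE_wf {n : ℕ} {F : List (List (ℕ × Bool))} (hn : 0 < n)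
    (hF : ∀ c ∈ F, c ≠ [] ∧ ∀ l ∈ c, l.1 < n) : WF (2 * n) (hyE n F) n := by
  refine ⟨by omega, by omega, ?_, ?_, ?_⟩
  · intro e he
    simp only [hyE, List.mem_append, List.mem_map] at he
    rcases he with ⟨v, -, rfl⟩ | ⟨c, hc, rfl⟩
    · simp
    · simpa using (hF c hc).1
  · intro e he w hw
    simp only [hyE, List.mem_append, List.mem_map, List.mem_range] at he
    rcases he with ⟨v, hv, rfl⟩ | ⟨c, hc, rfl⟩
    · simp only [List.mem_cons, List.not_mem_nil, or_false] at hw
      omega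
    · obtain ⟨l, hl, rfl⟩ := List.mem_map.1 hw
      have := (hF c hc).2 l hl
      cases l.2 <;> simp <;> omega
  · intro w hw
    refine ⟨[2 * (w / 2), 2 * (w / 2) + 1], ?_, ?_⟩
    · simp only [hyE, List.mem_append, List.mem_map, List.mem_range]
      exact Or.inl ⟨w / 2, by omega, rfl⟩
    · simp only [List.mem_cons, List.not_mem_nil, or_false]
      omega

theorem hyE_yes {n : ℕ} {F : List (List (ℕ × Bool))} (hn : 0 < n)
    (hF : ∀ c ∈ F, c ≠ [] ∧ ∀ l ∈ c, l.1 < n) {σ : ℕ → Bool}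
    (hσ : ∀ c ∈ F, ∃ l ∈ c, σ l.1 = l.2) : ∃ x y, Frac (2 * n) (hyE n F) n 1 x y := by
  classical
  have hmem : ∀ w, w ∈ (Finset.range n).image (fun v => 2 * v + bif σ v then 1 else 0) →
      w % 2 = bif σ (w / 2) then 1 else 0 := by
    intro w hw
    obtain ⟨v, -, rfl⟩ := Finset.mem_image.1 hw
    cases h : σ v
    · simp [h]
    · have : (2 * v + 1) / 2 = v := by omega
      simp [this, h]
  refine frac_of_set_17 (hyE_wf hn hF)
    ((Finset.range n).image (fun v => 2 * v + bif σ v then 1 else 0)) ?_ ?_ ?_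
  · intro w hw
    obtain ⟨v, hv, rfl⟩ := Finset.mem_image.1 hw
    have := Finset.mem_range.1 hv
    cases σ v <;> simp <;> omega
  · rw [Finset.card_image_of_injOn, Finset.card_range]
    intro a _ b _ hab
    simp only at hab
    cases ha : σ a <;> cases hb : σ b <;> simp [ha, hb] at hab <;> omega
  · intro e he
    simp only [hyE, List.mem_append, List.mem_map, List.mem_range] at he
    rcases he with ⟨v, hv, rfl⟩ | ⟨c, hc, rfl⟩
    · cases h : σ v
      · refine ⟨2 * v + 1, by simp, fun hw => ?_⟩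
        have := hmem _ hw
        have h2 : (2 * v + 1) / 2 = v := by omega
        rw [h2, h] at this
        simp at this
      · refine ⟨2 * v, by simp, fun hw => ?_⟩
        have := hmem _ hw
        have h2 : (2 * v) / 2 = v := by omega
        rw [h2, h] at this
        simp at this
    · obtain ⟨l, hl, hl'⟩ := hσ c hc
      refine ⟨_, List.mem_map.2 ⟨l, hl, rfl⟩, fun hw => ?_⟩
      have := hmem _ hw
      cases h : l.2
      · have h2 : (2 * l.1 + 1) / 2 = l.1 := by omega
        simp only [h, cond_false, h2] at this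
        rw [hl', h] at this
        simp at this
      · have h2 : (2 * l.1) / 2 = l.1 := by omega
        simp only [h, cond_true, add_zero, h2] at this
        rw [hl', h] at this
        simp at this

theorem hyE_no {n : ℕ} {F : List (List (ℕ × Bool))}
    (hF : ∀ c ∈ F, c ≠ [] ∧ ∀ l ∈ c, l.1 < n)
    (hσ : ¬ ∃ σ : ℕ → Bool, ∀ c ∈ F, ∃ l ∈ c, σ l.1 = l.2) : NoIS (2 * n) (hyE n F) n := by
  classical
  intro S hS hE
  by_contra hc
  have hc : n ≤ S.card := not_lt.1 hc
  apply hσ
  have hpair : ∀ v < n, 2 * v ∉ S ∨ 2 * v + 1 ∉ S := by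
    intro v hv
    obtain ⟨w, hw, hw'⟩ := hE [2 * v, 2 * v + 1] (by
      simp only [hyE, List.mem_append, List.mem_map, List.mem_range]
      exact Or.inl ⟨v, hv, rfl⟩)
    simp only [List.mem_cons, List.not_mem_nil, or_false] at hw
    rcases hw with rfl | rfl
    · exact Or.inl hw'
    · exact Or.inr hw'
  have hinj : Set.InjOn (fun w : ℕ => w / 2) S := by
    intro a ha b hb hab
    simp only at hab
    have h1 := Finset.mem_range.1 (hS ha)
    by_contra hne
    rcases hpair (a / 2) (by omega) with h | h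
    · rcases (by omega : a = 2 * (a / 2) ∨ b = 2 * (a / 2)) with h2 | h2
      · exact h (h2 ▸ ha)
      · exact h (h2 ▸ hb)
    · rcases (by omega : a = 2 * (a / 2) + 1 ∨ b = 2 * (a / 2) + 1) with h2 | h2
      · exact h (h2 ▸ ha)
      · exact h (h2 ▸ hb)
  have himg : S.image (fun w => w / 2) = Finset.range n := by
    apply Finset.eq_of_subset_of_card_le
    · intro v hv
      obtain ⟨w, hw, rfl⟩ := Finset.mem_image.1 hv
      have := Finset.mem_range.1 (hS hw)
      exact Finset.mem_range.2 (by omega)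
    · rw [Finset.card_image_of_injOn hinj, Finset.card_range]
      exact hc
  have hsurj : ∀ v < n, 2 * v ∈ S ∨ 2 * v + 1 ∈ S := by
    intro v hv
    have : v ∈ S.image (fun w => w / 2) := by rw [himg]; exact Finset.mem_range.2 hv
    obtain ⟨w, hw, hw'⟩ := Finset.mem_image.1 this
    rcases (by omega : w = 2 * v ∨ w = 2 * v + 1) with h | h
    · exact Or.inl (h ▸ hw)
    · exact Or.inr (h ▸ hw)
  refine ⟨fun v => decide (2 * v + 1 ∈ S), fun c hc => ?_⟩
  obtain ⟨w, hw, hw'⟩ := hE (c.map fun l => 2 * l.1 + bif l.2 then 0 else 1) (by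
    simp only [hyE, List.mem_append, List.mem_map]
    exact Or.inr ⟨c, hc, rfl⟩)
  obtain ⟨l, hl, rfl⟩ := List.mem_map.1 hw
  refine ⟨l, hl, ?_⟩
  have h1 := hsurj l.1 ((hF c hc).2 l hl)
  cases h : l.2
  · simpa [h] using hw'
  · simp only [h, cond_true, add_zero] at hw'
    simpa [hw'] using h1

theorem ptf_hyE {γ : Type} [PTCode γ] {n : γ → ℕ} {F : γ → List (List (ℕ × Bool))} (hn : PTU n)
    (hF : PTF F) : PTF (fun c => hyE (n c) (F c)) := by
  unfold hyE
  refine PTF.append (PTF.map (PTF.range hn) ?_) (PTF.map hF ?_)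
  · exact CL.ptf_l2 (PTF.natMul (PTF.const 2) PTF.snd)
      (CL.ptf_succ (PTF.natMul (PTF.const 2) PTF.snd))
  · refine PTF.map (f := fun _ (l : ℕ × Bool) => 2 * l.1 + bif l.2 then 0 else 1) PTF.snd ?_
    exact PTF.natAdd (PTF.natMul (PTF.const 2) (PTF.comp PTF.fst PTF.snd))
      (PTF.cond (PTF.comp PTF.snd PTF.snd) (PTF.const 0) (PTF.const 1))

/-- **Cook–Levin, hypergraph form.** -/
theorem hyper_17 (A : Set (List Bool)) (hA : Crest.Complexity.InNP A) :
    ∃ (n k : List Bool → ℕ) (E : List Bool → List (List ℕ)), PTU n ∧ PTU k ∧ PTF E ∧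
      ∀ x, WF (n x) (E x) (k x) ∧ (x ∈ A → ∃ a y, Frac (n x) (E x) (k x) 1 a y) ∧
        (x ∉ A → NoIS (n x) (E x) (k x)) := by
  obtain ⟨n, F, hn, hF, h⟩ := cookLevin_17 A hA
  refine ⟨fun x => 2 * n x, n, fun x => hyE (n x) (F x), PTU.mul (PTU.const 2) hn, hn,
    ptf_hyE hn hF, fun x => ?_⟩
  obtain ⟨h0, h1, h2⟩ := h x
  refine ⟨hyE_wf h0 h1, fun hx => ?_, fun hx => hyE_no h1 (fun h3 => hx (h2.2 h3))⟩
  obtain ⟨σ, hσ⟩ := h2.1 hx
  exact hyE_yes h0 h1 hσ

/-- the generator leaf, for inputs that are bit strings -/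
def GenStmt17 : Prop :=
  ∀ (D : ℕ) (n k : List Bool → ℕ) (E : List Bool → List (List ℕ)), PTU n → PTU k → PTF E →
    PTF (fun c => instA D (n c) (E c) (k c)) ∧ PTF (fun c => instB D (n c) (E c) (k c)) ∧
      PTF (fun c => instZ D (n c) (E c) (k c))

theorem coreHard_of_17 (hNo : NoStmt) (hYes : YesStmt) (hGen : GenStmt17) : CoreHard := by
  intro D L hL
  obtain ⟨n, k, E, hn, hk, hE, h⟩ := hyper_17 L hL
  obtain ⟨hA, hB, hZ⟩ := hGen D n k E hn hk hE
  refine ⟨_, _, _, hA, hB, hZ, fun x => ⟨by simp [instA, instB], by simp [instA, instZ],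
    fun hx => ?_, fun hx => ?_⟩⟩
  · obtain ⟨a, y, hf⟩ := (h x).2.1 hx
    exact hYes D _ _ _ 1 a y (h x).1 hf
  · rintro ⟨Q, h1, h2, h3, h4, h5⟩
    exact hNo D _ _ _ (h x).1 ((h x).2.2 hx) Q h1 h2 h3 h4 h5

/-- the edges of the complete graph on four vertices -/
def k4E : List (List ℕ) := [[0, 1], [0, 2], [0, 3], [1, 2], [1, 3], [2, 3]]

theorem k4_wf : WF 4 k4E 2 := by
  refine ⟨by omega, by omega, by decide, by decide, by decide⟩

theorem k4_no : NoIS 4 k4E 2 := by
  intro S hS hE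
  by_contra hc
  obtain ⟨a, ha, b, hb, hab⟩ := Finset.one_lt_card.1 (show 1 < S.card by omega)
  have ha4 := Finset.mem_range.1 (hS ha)
  have hb4 := Finset.mem_range.1 (hS hb)
  simp only [k4E, List.mem_cons, List.not_mem_nil, or_false, forall_eq_or_imp, forall_eq,
    exists_eq_or_imp, exists_eq_left] at hE
  interval_cases a <;> interval_cases b <;> simp_all

theorem k4_frac : Frac 4 k4E 2 2 (fun _ => 1) (fun _ _ => 1) := by
  refine ⟨by decide, by decide, fun _ _ => by omega, fun _ _ _ _ => by omega⟩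

theorem coreGap_of_17 (hNo : NoStmt) (hYes : YesStmt) : CoreGap := by
  intro D
  refine ⟨2, instA D 4 k4E 2, instB D 4 k4E 2, instZ D 4 k4E 2, by omega,
    by simp [instA, instB], by simp [instA, instZ], hYes D 4 k4E 2 2 _ _ k4_wf k4_frac, ?_⟩
  rintro ⟨Q, h1, h2, h3, h4, h5⟩
  exact hNo D 4 k4E 2 k4_wf k4_no Q h1 h2 h3 h4 h5

end Crest.Agent.T318
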